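import Crest.Agent.R113.TransferLA
import Crest.Agent.R113.TransferDefs
import Mathlib
import Crest.Agent.R113.Design

-- ▼ part R113/TransferOp
section

/-! Row 113, S0149, task T13: compression of a projection on `ℓ²(ℤ)` to `ℂ^q`
and the deterministic part of the transfer. -/

set_option autoImplicit false
set_option linter.unusedSectionVars false

open scoped InnerProductSpace ComplexConjugate

namespace Crest.Agent.R113.Transfer

/-- basis vector of `ℓ²(ℤ)` -/
noncomputable abbrev dz (m : ℤ) : L2Z := lp.single 2 m (1 : ℂ)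

lemma two_toReal_pos : 0 < (2 : ENNReal).toReal := by norm_num

lemma inner_dz (m : ℤ) (f : L2Z) : ⟪dz m, f⟫_ℂ = f m := by
  rw [lp.inner_single_left]; simp

lemma dz_apply (m k : ℤ) : (dz m : L2Z) k = if k = m then 1 else 0 := by
  rw [lp.single_apply, Pi.single_apply]

lemma norm_dz (m : ℤ) : ‖dz m‖ = 1 := by
  rw [lp.norm_single (by norm_num)]; simp

section Shift

theorem wfun_sum_le {w : ℤ → ℝ} (hw : ∀ j, |w j| ≤ 1) (v : L2Z) (s : Finset ℤ) :
    ∑ k ∈ s, ‖(w (k - 1) : ℂ) * v (k - 1)‖ ^ (2 : ENNReal).toReal ≤ ‖v‖ ^ (2 : ENNReal).toReal := by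
  have h1 : ∀ k, ‖(w (k - 1) : ℂ) * v (k - 1)‖ ^ (2 : ENNReal).toReal ≤
      ‖v (k - 1)‖ ^ (2 : ENNReal).toReal := by
    intro k
    apply Real.rpow_le_rpow (norm_nonneg _) _ (le_of_lt two_toReal_pos)
    rw [norm_mul, Complex.norm_real]
    exact mul_le_of_le_one_left (norm_nonneg _) (hw _)
  calc ∑ k ∈ s, ‖(w (k - 1) : ℂ) * v (k - 1)‖ ^ (2 : ENNReal).toReal
      ≤ ∑ k ∈ s, ‖v (k - 1)‖ ^ (2 : ENNReal).toReal :=
        Finset.sum_le_sum fun k _ => h1 k
    _ = ∑ k ∈ s.map (Equiv.subRight (1 : ℤ)).toEmbedding,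
          ‖v k‖ ^ (2 : ENNReal).toReal := by
        rw [Finset.sum_map]; rfl
    _ ≤ ‖v‖ ^ (2 : ENNReal).toReal := lp.sum_rpow_le_norm_rpow two_toReal_pos v _

/-- The weighted shift operator `δ_j ↦ w_j δ_{j+1}` on `ℓ²(ℤ)`, for weights bounded by one. -/
noncomputable def wsh (w : ℤ → ℝ) (hw : ∀ j, |w j| ≤ 1) : L2Z →L[ℂ] L2Z :=
  LinearMap.mkContinuous
    { toFun := fun v => ⟨fun k => (w (k - 1) : ℂ) * v (k - 1), memℓp_gen' (wfun_sum_le hw v)⟩
      map_add' := by
        intro u v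
        apply lp.ext
        funext k
        change (w (k - 1) : ℂ) * (u + v) (k - 1) = (w (k - 1) : ℂ) * u (k - 1) + (w (k - 1) : ℂ) * v (k - 1)
        rw [lp.coeFn_add, Pi.add_apply, mul_add]
      map_smul' := by
        intro c v
        apply lp.ext
        funext k
        change (w (k - 1) : ℂ) * (c • v) (k - 1) = c * ((w (k - 1) : ℂ) * v (k - 1))
        rw [lp.coeFn_smul, Pi.smul_apply, smul_eq_mul]
        ring }
    1 (by
      intro v
      rw [one_mul]
      apply lp.norm_le_of_forall_sum_le two_toReal_pos (norm_nonneg _)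
      intro s
      exact wfun_sum_le hw v s)

theorem wsh_apply {w : ℤ → ℝ} {hw : ∀ j, |w j| ≤ 1} (v : L2Z) (k : ℤ) :
    wsh w hw v k = (w (k - 1) : ℂ) * v (k - 1) := rfl

theorem wsh_norm_le {w : ℤ → ℝ} {hw : ∀ j, |w j| ≤ 1} (v : L2Z) : ‖wsh w hw v‖ ≤ ‖v‖ := by
  have := (wsh w hw).le_of_opNorm_le (LinearMap.mkContinuous_norm_le _ zero_le_one _) v
  simpa using this

theorem wsh_single {w : ℤ → ℝ} {hw : ∀ j, |w j| ≤ 1} (m : ℤ) :
    wsh w hw (dz m) = (w m : ℂ) • dz (m + 1) := by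
  apply lp.ext
  funext k
  rw [wsh_apply, lp.coeFn_smul, Pi.smul_apply, dz_apply, dz_apply, smul_eq_mul]
  by_cases h : k = m + 1
  · subst h; simp
  · rw [if_neg (by omega), if_neg h, mul_zero, mul_zero]

theorem wsh_pow_apply {w : ℤ → ℝ} {hw : ∀ j, |w j| ≤ 1} (n : ℕ) (v : L2Z) (k : ℤ) :
    ((wsh w hw) ^ n) v k = ((∏ i ∈ Finset.range n, w (k - n + i) : ℝ) : ℂ) * v (k - n) := by
  induction n generalizing k with
  | zero => simp
  | succ n ih =>
    rw [pow_succ', mul_apply_eq_comp, wsh_apply, ih]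
    rw [Finset.prod_range_succ']
    have h1 : (k - 1 - (n : ℤ)) = k - ((n + 1 : ℕ) : ℤ) := by push_cast; ring
    rw [h1]
    -- reorganise the product
    have h2 : (∏ i ∈ Finset.range n, w (k - ((n + 1 : ℕ) : ℤ) + i)) * w (k - 1) =
        (∏ i ∈ Finset.range n, w (k - ((n + 1 : ℕ) : ℤ) + ((i + 1 : ℕ) : ℤ))) *
          w (k - ((n + 1 : ℕ) : ℤ) + ((0 : ℕ) : ℤ)) := by
      rw [← Finset.prod_range_succ' (fun i : ℕ => w (k - ((n + 1 : ℕ) : ℤ) + (i : ℤ))) n,
        Finset.prod_range_succ]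
      congr 2
      push_cast; ring
    rw [← h2]
    push_cast
    ring

theorem wsh_pow_norm_le {w : ℤ → ℝ} {hw : ∀ j, |w j| ≤ 1} (n : ℕ) (v : L2Z) :
    ‖((wsh w hw) ^ n) v‖ ≤ ‖v‖ := by
  induction n with
  | zero => simp
  | succ n ih =>
    rw [pow_succ', mul_apply_eq_comp]
    exact (wsh_norm_le _).trans ih

end Shift

section Embedding

variable (q : ℕ)

/-- the embedding `ℂ^q → ℓ²(ℤ)` -/
noncomputable def embL : EuclideanSpace ℂ (Fin q) →ₗ[ℂ] L2Z where
  toFun v := ∑ m : Fin q, v m • dz ((m : ℕ) : ℤ)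
  map_add' u v := by
    simp only [PiLp.add_apply, add_smul, Finset.sum_add_distrib]
  map_smul' c v := by
    simp only [PiLp.smul_apply, smul_eq_mul, mul_smul, Finset.smul_sum, RingHom.id_apply]

lemma embL_apply (v : EuclideanSpace ℂ (Fin q)) (k : ℤ) :
    (embL q v) k = if h : 0 ≤ k ∧ k < q then v ⟨k.toNat, by omega⟩ else 0 := by
  have h1 : (embL q v) k = ∑ m : Fin q, v m * (if k = ((m : ℕ) : ℤ) then 1 else 0) := by
    have : (embL q v) k = ⟪dz k, embL q v⟫_ℂ := (inner_dz k _).symm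
    rw [this]
    change ⟪dz k, ∑ m : Fin q, v m • dz ((m : ℕ) : ℤ)⟫_ℂ = _
    rw [inner_sum]
    apply Finset.sum_congr rfl
    intro m _
    rw [inner_smul_right, inner_dz, dz_apply]
  rw [h1]
  split_ifs with h
  · rw [Finset.sum_eq_single (⟨k.toNat, by omega⟩ : Fin q)]
    · rw [if_pos, mul_one]
      simp only
      omega
    · intro m _ hm
      rw [if_neg, mul_zero]
      intro h'
      apply hm
      apply Fin.ext
      simp only
      omega
    · intro h'; exact absurd (Finset.mem_univ _) h'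
  · apply Finset.sum_eq_zero
    intro m _
    rw [if_neg, mul_zero]
    intro h'
    have := m.2
    omega

lemma embL_single (m : Fin q) : embL q (dlt m) = dz ((m : ℕ) : ℤ) := by
  change ∑ m' : Fin q, (dlt m : EuclideanSpace ℂ (Fin q)) m' • dz ((m' : ℕ) : ℤ) = _
  rw [Finset.sum_eq_single m]
  · simp
  · intro m' _ hm
    simp [hm]
  · intro h; exact absurd (Finset.mem_univ _) h

lemma embL_inner (u v : EuclideanSpace ℂ (Fin q)) : ⟪embL q u, embL q v⟫_ℂ = ⟪u, v⟫_ℂ := by
  change ⟪∑ m : Fin q, u m • dz ((m : ℕ) : ℤ), embL q v⟫_ℂ = _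
  rw [sum_inner, PiLp.inner_apply]
  apply Finset.sum_congr rfl
  intro m _
  rw [inner_smul_left, inner_dz, embL_apply, dif_pos ⟨by omega, by have := m.2; omega⟩]
  simp [mul_comm]

/-- the isometric embedding `ℂ^q → ℓ²(ℤ)` -/
noncomputable def emb : EuclideanSpace ℂ (Fin q) →ₗᵢ[ℂ] L2Z :=
  (embL q).isometryOfInner (embL_inner q)

lemma emb_apply (v : EuclideanSpace ℂ (Fin q)) (k : ℤ) :
    (emb q v) k = if h : 0 ≤ k ∧ k < q then v ⟨k.toNat, by omega⟩ else 0 := embL_apply q v k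

lemma emb_single (m : Fin q) : emb q (dlt m) = dz ((m : ℕ) : ℤ) := embL_single q m

/-- the compression of an operator to `ℂ^q` -/
noncomputable def compr (P : L2Z →L[ℂ] L2Z) :
    EuclideanSpace ℂ (Fin q) →ₗ[ℂ] EuclideanSpace ℂ (Fin q) :=
  ((emb q).toContinuousLinearMap.adjoint ∘L P ∘L (emb q).toContinuousLinearMap :
    EuclideanSpace ℂ (Fin q) →L[ℂ] EuclideanSpace ℂ (Fin q)).toLinearMap

lemma inner_compr (P : L2Z →L[ℂ] L2Z) (u v : EuclideanSpace ℂ (Fin q)) :
    ⟪u, compr q P v⟫_ℂ = ⟪emb q u, P (emb q v)⟫_ℂ := by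
  change ⟪u, (emb q).toContinuousLinearMap.adjoint (P (emb q v))⟫_ℂ = _
  rw [ContinuousLinearMap.adjoint_inner_right]
  rfl

variable {q}

lemma proj_inner {P : L2Z →L[ℂ] L2Z} (hP : IsStarProjection P) (h : L2Z) :
    ⟪h, P h⟫_ℂ = (‖P h‖ ^ 2 : ℝ) := by
  have h1 : P (P h) = P h := by
    have := hP.isIdempotentElem
    exact congrArg (fun T : L2Z →L[ℂ] L2Z => T h) this
  have h2 : ⟪h, P (P h)⟫_ℂ = ⟪P h, P h⟫_ℂ := by
    rw [← ContinuousLinearMap.adjoint_inner_left]
    have := hP.isSelfAdjoint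
    rw [ContinuousLinearMap.isSelfAdjoint_iff'.1 this]
  rw [← h1, h2, inner_self_eq_norm_sq_to_K]
  rw [h1]
  norm_cast

lemma proj_sub_norm {P : L2Z →L[ℂ] L2Z} (hP : IsStarProjection P) (h : L2Z) :
    ‖h - P h‖ ^ 2 = ‖h‖ ^ 2 - ‖P h‖ ^ 2 := by
  have h1 := proj_inner hP h
  have h2 : (⟪h, P h⟫_ℂ).re = ‖P h‖ ^ 2 := by rw [h1]; norm_cast
  have := @norm_sub_sq ℂ L2Z _ _ _ h (P h)
  rw [this]
  have h3 : RCLike.re ⟪h, P h⟫_ℂ = ‖P h‖ ^ 2 := h2
  rw [h3]; ring

lemma compr_sym {P : L2Z →L[ℂ] L2Z} (hP : IsStarProjection P) :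
    (compr q P).IsSymmetric := by
  intro u v
  rw [← inner_conj_symm, inner_compr, inner_compr, inner_conj_symm,
    ← ContinuousLinearMap.adjoint_inner_right,
    ContinuousLinearMap.isSelfAdjoint_iff'.1 hP.isSelfAdjoint]

lemma compr_quad {P : L2Z →L[ℂ] L2Z} (hP : IsStarProjection P) (v : EuclideanSpace ℂ (Fin q)) :
    (⟪v, compr q P v⟫_ℂ).re = ‖P (emb q v)‖ ^ 2 := by
  rw [inner_compr, proj_inner hP]
  norm_cast

end Embedding

end Crest.Agent.R113.Transfer
end

-- ▼ part R113/TransferDet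
section

/-! Row 113, S0149, task T13: the deterministic part of the transfer. -/

set_option autoImplicit false
set_option linter.unusedSectionVars false

open scoped InnerProductSpace ComplexConjugate

namespace Crest.Agent.R113.Transfer

/-- truncated `n`-th power of the weighted shift with weights `w : ℤ → ℝ` -/
noncomputable def shiftPowW (w : ℤ → ℝ) (q n : ℕ) (v : EuclideanSpace ℂ (Fin q)) :
    EuclideanSpace ℂ (Fin q) :=
  WithLp.toLp 2 fun j : Fin q => if h : n ≤ (j : ℕ) then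
    ((∏ i ∈ Finset.range n, w (((j : ℕ) - n + i : ℕ) : ℤ) : ℝ) : ℂ)
      * v ⟨(j : ℕ) - n, by have := j.2; omega⟩ else 0

lemma shiftPow_eq (θ : ℝ) (F : UnitAddCircle → ℝ) (x : UnitAddCircle) (q n : ℕ)
    (v : EuclideanSpace ℂ (Fin q)) :
    shiftPow θ F x q n v = shiftPowW (fun m => F (x + m • ((θ : ℝ) : UnitAddCircle))) q n v := rfl

lemma emb_shiftPowW {w : ℤ → ℝ} {hw : ∀ j, |w j| ≤ 1} (q n : ℕ) (v : EuclideanSpace ℂ (Fin q))
    (hv : ∀ m : Fin q, q ≤ (m : ℕ) + n → v m = 0) :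
    emb q (shiftPowW w q n v) = ((wsh w hw) ^ n) (emb q v) := by
  apply lp.ext
  funext k
  rw [wsh_pow_apply, emb_apply, emb_apply]
  by_cases h : 0 ≤ k ∧ k < q
  · rw [dif_pos h]
    simp only [shiftPowW]
    by_cases h2 : n ≤ k.toNat
    · rw [dif_pos h2, dif_pos (by omega)]
      congr 1
      · congr 1
        apply Finset.prod_congr rfl
        intro i _
        congr 1
        omega
      · have h3 : (⟨k.toNat - n, by omega⟩ : Fin q) = ⟨(k - (n : ℤ)).toNat, by omega⟩ := by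
          apply Fin.ext
          simp only
          omega
        rw [h3]
    · rw [dif_neg h2, dif_neg (by omega), mul_zero]
  · rw [dif_neg h]
    by_cases h2 : 0 ≤ k - n ∧ k - n < q
    · rw [dif_pos h2, hv _ (by simp only; omega), mul_zero]
    · rw [dif_neg h2, mul_zero]

lemma inv_pow {P T : L2Z →L[ℂ] L2Z} (hinv : (1 - P) * T * P = 0) (n : ℕ) :
    (1 - P) * T ^ n * P = 0 ∨ (1 - P) * P ≠ 0 := by
  by_cases hPP : (1 - P) * P = 0
  · left
    induction n with
    | zero => simpa using hPP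
    | succ n ih =>
      have h1 : T ^ n * P = P * (T ^ n * P) := by
        have : (1 - P) * (T ^ n * P) = 0 := by rw [← mul_assoc]; exact ih
        rw [sub_mul, one_mul, sub_eq_zero] at this
        exact this
      rw [pow_succ', mul_assoc, mul_assoc, h1]
      calc (1 - P) * (T * (P * (T ^ n * P))) = ((1 - P) * T * P) * (T ^ n * P) := by
            simp only [mul_assoc]
        _ = 0 := by rw [hinv, zero_mul]
  · right; exact hPP

lemma inv_norm {w : ℤ → ℝ} {hw : ∀ j, |w j| ≤ 1} {P : L2Z →L[ℂ] L2Z} (hP : IsStarProjection P)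
    (hinv : (1 - P) * wsh w hw * P = 0) (n : ℕ) (h : L2Z) :
    ‖((wsh w hw) ^ n) h - P (((wsh w hw) ^ n) h)‖ ≤ ‖h - P h‖ := by
  have hPP : P * P = P := hP.isIdempotentElem
  have h0 : (1 - P) * P = 0 := by rw [sub_mul, one_mul, hPP, sub_self]
  have h1 : (1 - P) * (wsh w hw) ^ n * P = 0 := by
    rcases inv_pow hinv n with h | h
    · exact h
    · exact absurd h0 h
  have h2 : ((1 - P) * (wsh w hw) ^ n * P) h = 0 := by rw [h1]; rfl
  have h3 : ((wsh w hw) ^ n) (P h) - P (((wsh w hw) ^ n) (P h)) = 0 := by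
    simpa [mul_apply_eq_comp] using h2
  set S := (wsh w hw) ^ n with hS
  have h4 : S h - P (S h) = S (h - P h) - P (S (h - P h)) := by
    rw [map_sub, map_sub]
    have : S h - P (S h) = (S h - S (P h)) - (P (S h) - P (S (P h))) +
      (S (P h) - P (S (P h))) := by abel
    rw [this, h3, add_zero]
  rw [h4]
  have h5 : ‖S (h - P h) - P (S (h - P h))‖ ≤ ‖S (h - P h)‖ := by
    have := proj_sub_norm hP (S (h - P h))
    have h6 : ‖S (h - P h) - P (S (h - P h))‖ ^ 2 ≤ ‖S (h - P h)‖ ^ 2 := by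
      rw [this]; linarith [sq_nonneg ‖P (S (h - P h))‖]
    exact le_of_sq_le_sq h6 (norm_nonneg _)
  exact h5.trans (wsh_pow_norm_le n _)
where
  le_of_sq_le_sq {a b : ℝ} (h : a ^ 2 ≤ b ^ 2) (hb : 0 ≤ b) : a ≤ b := abs_le_of_sq_le_sq' h hb |>.2

/-- the trace defect `tr (A - A²)` of the compression -/
noncomputable def defect (P : L2Z →L[ℂ] L2Z) (q : ℕ) : ℝ :=
  ∑ m : Fin q, (‖P (dz ((m : ℕ) : ℤ))‖ ^ 2 -
    ∑ m' : Fin q, ‖(P (dz ((m : ℕ) : ℤ)) : ℤ → ℂ) ((m' : ℕ) : ℤ)‖ ^ 2)

theorem determ {w : ℤ → ℝ} {hw : ∀ j, |w j| ≤ 1} {P : L2Z →L[ℂ] L2Z} (hP : IsStarProjection P)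
    (hinv : (1 - P) * wsh w hw * P = 0) (q : ℕ) (c : ℝ) (hc : 1 ≤ c) :
    ∃ E : Submodule ℂ (EuclideanSpace ℂ (Fin q)),
      |(Module.finrank ℂ E : ℝ) - ∑ m : Fin q, ‖P (dz ((m : ℕ) : ℤ))‖ ^ 2| ≤
        Real.exp (2 * c) * defect P q ∧
      (∀ n : ℕ, ∃ E' : Submodule ℂ (EuclideanSpace ℂ (Fin q)), E' ≤ E ∧
        (Module.finrank ℂ E : ℝ) ≤ Module.finrank ℂ E' + (2 * Real.exp (4 * c) * defect P q + n) ∧
        ∀ v ∈ E', (∀ m : Fin q, q ≤ (m : ℕ) + n → v m = 0) ∧
          ‖shiftPowW w q n v - E.starProjection (shiftPowW w q n v)‖ ≤ Real.exp (-c) * ‖v‖) ∧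
      ∑ m : Fin q, |‖E.starProjection (dlt m)‖ ^ 2 - ‖P (dz ((m : ℕ) : ℤ))‖ ^ 2| ≤
        Real.exp (2 * c) * defect P q ∧
      ∑ m : Fin q, ∑ m' : Fin q, ‖⟪dlt m', E.starProjection (dlt m)⟫_ℂ -
          (P (dz ((m : ℕ) : ℤ)) : ℤ → ℂ) ((m' : ℕ) : ℤ)‖ ^ 2 ≤
        Real.exp (2 * c) * defect P q := by
  classical
  set A := compr q P with hA
  set e := EuclideanSpace.basisFun (Fin q) ℂ with he
  have hem : ∀ m, e m = dlt m := fun m => by
    rw [he, EuclideanSpace.basisFun_apply]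
  have h0 : ∀ v, 0 ≤ (⟪v, A v⟫_ℂ).re := fun v => by rw [hA, compr_quad hP]; positivity
  have hPle : ∀ h : L2Z, ‖P h‖ ^ 2 ≤ ‖h‖ ^ 2 := fun h => by
    have := proj_sub_norm hP h
    have h2 := sq_nonneg ‖h - P h‖
    linarith
  have h1 : ∀ v, (⟪v, A v⟫_ℂ).re ≤ ‖v‖ ^ 2 := fun v => by
    rw [hA, compr_quad hP]
    refine (hPle _).trans ?_
    rw [(emb q).norm_map]
  have hexp2 : Real.exp (-2 * c) ≤ 1 / 2 := by
    have h2 : Real.exp (-2 * c) ≤ Real.exp (-1) := Real.exp_le_exp.2 (by linarith)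
    have h3 : Real.exp (-1) < 1 / 2 := by
      rw [Real.exp_neg]
      have := Real.add_one_lt_exp (x := 1) (by norm_num)
      rw [inv_eq_one_div]
      apply one_div_lt_one_div_of_lt <;> linarith
    linarith
  have hexp4 : Real.exp (-4 * c) ≤ Real.exp (-2 * c) := Real.exp_le_exp.2 (by linarith)
  obtain ⟨E, E1, hle, hE1, hEg, hcnt, hdim, hdiag, hHS⟩ := spectral_exists e A (compr_sym hP) h0 h1
    (1 - Real.exp (-2 * c)) (1 - Real.exp (-4 * c)) (by linarith) (by linarith)
    (by linarith [Real.exp_pos (-4 * c)])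
  have hquad : ∀ m : Fin q, (⟪e m, A (e m)⟫_ℂ).re = ‖P (dz ((m : ℕ) : ℤ))‖ ^ 2 := fun m => by
    rw [hem, hA, compr_quad hP, emb_single]
  have hAcoord : ∀ m m' : Fin q, ⟪dlt m', A (dlt m)⟫_ℂ =
      (P (dz ((m : ℕ) : ℤ)) : ℤ → ℂ) ((m' : ℕ) : ℤ) := fun m m' => by
    rw [hA, inner_compr, emb_single, emb_single, inner_dz]
  have hAnorm : ∀ m : Fin q, ‖A (e m)‖ ^ 2 =
      ∑ m' : Fin q, ‖(P (dz ((m : ℕ) : ℤ)) : ℤ → ℂ) ((m' : ℕ) : ℤ)‖ ^ 2 := fun m => by
    rw [norm_sq_eq_sum e]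
    apply Finset.sum_congr rfl
    intro m' _
    rw [hem, hem, hAcoord]
  have hdef : ∑ m, ((⟪e m, A (e m)⟫_ℂ).re - ‖A (e m)‖ ^ 2) = defect P q := by
    unfold defect
    apply Finset.sum_congr rfl
    intro m _
    rw [hquad, hAnorm]
  have hinvexp : ∀ a : ℝ, 1 / Real.exp (-2 * c) = Real.exp (2 * c) := fun _ => by
    rw [show -2 * c = -(2 * c) by ring, Real.exp_neg]; simp
  have hconv : ∀ a : ℝ, a / (1 - (1 - Real.exp (-2 * c))) = Real.exp (2 * c) * a := by
    intro a
    rw [sub_sub_cancel, div_eq_mul_one_div, hinvexp a]; ring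
  have hdef0 : 0 ≤ defect P q := by
    have h5 := hdim
    rw [hdef, hconv] at h5
    have h6 := (abs_nonneg _).trans h5
    exact nonneg_of_mul_nonneg_right h6 (Real.exp_pos _)
  rw [hdef, hconv] at hdim hdiag hHS
  rw [hdef] at hcnt
  simp_rw [hquad] at hdim
  refine ⟨E, hdim, ?_, ?_, ?_⟩
  · intro n
    set S : Finset (Fin q) := Finset.univ.filter (fun m => (m : ℕ) + n < q) with hS
    refine ⟨E1 ⊓ spanSet e S, inf_le_left.trans hle, ?_, ?_⟩
    · -- dimension count
      have hd1 := Submodule.finrank_sup_add_finrank_inf_eq E1 (spanSet e S)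
      have hd2 : Module.finrank ℂ ↥(E1 ⊔ spanSet e S) ≤ q := by
        have := Submodule.finrank_le (E1 ⊔ spanSet e S)
        simpa using this
      have hd3' : q ≤ Module.finrank ℂ (spanSet e S) + n := by
        rw [finrank_spanSet]
        have hc : Finset.card (Finset.univ.filter (fun m : Fin q => ¬ ((m : ℕ) + n < q))) ≤ n := by
          have : (Finset.univ.filter (fun m : Fin q => ¬ ((m : ℕ) + n < q))).card ≤
              (Finset.range n).card := by
            apply Finset.card_le_card_of_injOn (fun m : Fin q => q - 1 - (m : ℕ))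
            · intro m hm
              have hm' : ¬ ((m : ℕ) + n < q) := by simpa using hm
              have := m.2
              simp only [Finset.coe_range, Set.mem_Iio]
              omega
            · intro m _ m' _ hmm
              have := m.2; have := m'.2
              apply Fin.ext
              simp only at hmm
              omega
          simpa using this
        have hc2 := Finset.card_filter_add_card_filter_not (s := (Finset.univ : Finset (Fin q)))
          (fun m : Fin q => (m : ℕ) + n < q)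
        rw [Finset.card_univ, Fintype.card_fin] at hc2
        rw [← hS] at hc2
        omega
      have hd4 : Module.finrank ℂ E1 ≤ Module.finrank ℂ ↥(E1 ⊓ spanSet e S) + n := by omega
      have hd5 : (Module.finrank ℂ E1 : ℝ) ≤ Module.finrank ℂ ↥(E1 ⊓ spanSet e S) + n := by
        exact_mod_cast hd4
      -- from the count
      have hpos : 0 < (1 - Real.exp (-2 * c)) * (1 - (1 - Real.exp (-4 * c))) := by
        apply mul_pos
        · linarith
        · rw [sub_sub_cancel]; exact Real.exp_pos _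
      have hd6 : (Module.finrank ℂ E : ℝ) - Module.finrank ℂ E1 ≤
          2 * Real.exp (4 * c) * defect P q := by
        have h7 : (1 / 2) * Real.exp (-4 * c) ≤
            (1 - Real.exp (-2 * c)) * (1 - (1 - Real.exp (-4 * c))) := by
          rw [sub_sub_cancel]
          apply mul_le_mul_of_nonneg_right (by linarith) (Real.exp_pos _).le
        have h8 : (0 : ℝ) ≤ (Module.finrank ℂ E : ℝ) - Module.finrank ℂ E1 := by
          have := Submodule.finrank_mono hle
          have h9 : (Module.finrank ℂ E1 : ℝ) ≤ Module.finrank ℂ E := by exact_mod_cast this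
          linarith
        have h10 : ((Module.finrank ℂ E : ℝ) - Module.finrank ℂ E1) *
            ((1 / 2) * Real.exp (-4 * c)) ≤ defect P q :=
          (mul_le_mul_of_nonneg_left h7 h8).trans hcnt
        have h11 : Real.exp (-4 * c) * Real.exp (4 * c) = 1 := by
          rw [← Real.exp_add]; simp
        calc (Module.finrank ℂ E : ℝ) - Module.finrank ℂ E1
            = 2 * Real.exp (4 * c) * (((Module.finrank ℂ E : ℝ) - Module.finrank ℂ E1) *
              ((1 / 2) * Real.exp (-4 * c))) := by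
              have : 2 * Real.exp (4 * c) * (((Module.finrank ℂ E : ℝ) - Module.finrank ℂ E1) *
                ((1 / 2) * Real.exp (-4 * c))) = ((Module.finrank ℂ E : ℝ) - Module.finrank ℂ E1)
                * (Real.exp (-4 * c) * Real.exp (4 * c)) := by ring
              rw [this, h11, mul_one]
          _ ≤ 2 * Real.exp (4 * c) * defect P q :=
              mul_le_mul_of_nonneg_left h10 (by positivity)
      linarith
    · intro v hv
      have hv1 : v ∈ E1 := hv.1
      have hv2 : v ∈ spanSet e S := hv.2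
      have hsupp : ∀ m : Fin q, q ≤ (m : ℕ) + n → v m = 0 := by
        intro m hm
        have hmS : m ∉ S := by rw [hS, Finset.mem_filter]; push Not; intro _; exact hm
        have := inner_eq_zero_of_mem_spanSet e S hv2 hmS
        rw [hem] at this
        have h30 : ⟪dlt m, v⟫_ℂ = v m := by
          rw [EuclideanSpace.inner_single_left]; simp
        rw [h30] at this
        exact this
      refine ⟨hsupp, ?_⟩
      have hg := hEg (shiftPowW w q n v)
      rw [sub_sub_cancel] at hg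
      rw [hA, compr_quad hP, emb_shiftPowW (hw := hw) q n v hsupp] at hg
      have hn : ‖shiftPowW w q n v‖ = ‖((wsh w hw) ^ n) (emb q v)‖ := by
        rw [← emb_shiftPowW (hw := hw) q n v hsupp, (emb q).norm_map]
      rw [hn, ← proj_sub_norm hP] at hg
      have h20 := inv_norm hP hinv n (emb q v)
      have h21 : ‖emb q v - P (emb q v)‖ ^ 2 ≤ Real.exp (-4 * c) * ‖v‖ ^ 2 := by
        rw [proj_sub_norm hP, (emb q).norm_map]
        have := hE1 v hv1
        rw [hA, compr_quad hP] at this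
        linarith
      have h22 : ‖((wsh w hw) ^ n) (emb q v) - P (((wsh w hw) ^ n) (emb q v))‖ ^ 2 ≤
          Real.exp (-4 * c) * ‖v‖ ^ 2 :=
        (pow_le_pow_left₀ (norm_nonneg _) h20 2).trans h21
      have h23 := hg.trans h22
      have h24 : ‖shiftPowW w q n v - E.starProjection (shiftPowW w q n v)‖ ^ 2 ≤
          (Real.exp (-c) * ‖v‖) ^ 2 := by
        have h25 : Real.exp (-4 * c) = Real.exp (-2 * c) * Real.exp (-2 * c) := by
          rw [← Real.exp_add]; ring_nf
        rw [h25, mul_assoc] at h23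
        have h26 := le_of_mul_le_mul_left h23 (Real.exp_pos _)
        rw [mul_pow, ← Real.exp_nat_mul]
        have h27 : Real.exp (((2 : ℕ) : ℝ) * -c) = Real.exp (-2 * c) := by
          congr 1; push_cast; ring
        rw [h27]; exact h26
      exact (abs_le_of_sq_le_sq' h24 (by positivity)).2
  · refine le_trans (le_of_eq ?_) hdiag
    apply Finset.sum_congr rfl
    intro m _
    rw [hquad, hem]
  · refine le_trans (le_of_eq ?_) hHS
    apply Finset.sum_congr rfl
    intro m _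
    rw [norm_sq_eq_sum e]
    apply Finset.sum_congr rfl
    intro m' _
    rw [hem, hem, inner_sub_right, hAcoord]

end Crest.Agent.R113.Transfer
end

-- ▼ part R113/ErgL1
section

/-! Row 113, S0149, task T14: the L¹ mean ergodic theorem for bounded functions and Markov's
inequality in the form used by the transfer. -/

set_option autoImplicit false

open MeasureTheory Filter Topology
open scoped InnerProductSpace

namespace Crest.Agent.R113.Transfer

lemma markov {X : Type*} [MeasurableSpace X] {μ : Measure X} [IsFiniteMeasure μ] {f : X → ℝ}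
    (hf : Integrable f μ) (h0 : ∀ x, 0 ≤ f x) {a ε : ℝ} (ha : 0 < a)
    (h : ∫ x, f x ∂μ ≤ a * ε) : μ {x | a < f x} ≤ ENNReal.ofReal ε := by
  have h1 := mul_meas_ge_le_integral_of_nonneg (μ := μ) (Eventually.of_forall h0) hf a
  have h2 : a * μ.real {x | a ≤ f x} ≤ a * ε := h1.trans h
  have h3 : μ.real {x | a ≤ f x} ≤ ε := le_of_mul_le_mul_left h2 ha
  calc μ {x | a < f x} ≤ μ {x | a ≤ f x} := measure_mono (fun x (hx : a < f x) => (show a ≤ f x from hx.le))
    _ = ENNReal.ofReal (μ.real {x | a ≤ f x}) := by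
        rw [Measure.real, ENNReal.ofReal_toReal (measure_ne_top _ _)]
    _ ≤ ENNReal.ofReal ε := ENNReal.ofReal_le_ofReal h3

section
variable {X : Type*} [MeasurableSpace X] {μ : Measure X} {τ : X → X}

/-- the Koopman operator -/
noncomputable def koop (hmp : MeasurePreserving τ μ μ) : Lp ℝ 2 μ →L[ℝ] Lp ℝ 2 μ :=
  (Lp.compMeasurePreservingₗᵢ ℝ τ hmp).toContinuousLinearMap

lemma koop_norm_apply (hmp : MeasurePreserving τ μ μ) (f : Lp ℝ 2 μ) : ‖koop hmp f‖ = ‖f‖ :=
  Lp.norm_compMeasurePreserving f hmp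

lemma koop_norm (hmp : MeasurePreserving τ μ μ) : ‖koop hmp‖ ≤ 1 := by
  refine ContinuousLinearMap.opNorm_le_bound _ zero_le_one fun f => ?_
  rw [one_mul, koop_norm_apply]

lemma koop_coe (hmp : MeasurePreserving τ μ μ) (p : Lp ℝ 2 μ) :
    (koop hmp p : X → ℝ) =ᵐ[μ] (p : X → ℝ) ∘ τ := Lp.coeFn_compMeasurePreserving p hmp

lemma koop_iter_coe (hmp : MeasurePreserving τ μ μ) (g : Lp ℝ 2 μ) (h : X → ℝ)
    (hg : (g : X → ℝ) =ᵐ[μ] h) (i : ℕ) :
    ((⇑(koop hmp))^[i] g : X → ℝ) =ᵐ[μ] fun x => h (τ^[i] x) := by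
  induction i with
  | zero => simpa using hg
  | succ i ih =>
    rw [Function.iterate_succ_apply']
    refine (koop_coe hmp _).trans ?_
    refine (hmp.quasiMeasurePreserving.ae_eq_comp ih).trans ?_
    exact Eventually.of_forall fun x => by
      simp only [Function.comp]
      rw [← Function.iterate_succ_apply]

lemma birk_coe (hmp : MeasurePreserving τ μ μ) (g : Lp ℝ 2 μ) (h : X → ℝ)
    (hg : (g : X → ℝ) =ᵐ[μ] h) (n : ℕ) :
    ((birkhoffAverage ℝ (koop hmp) _root_.id n g : Lp ℝ 2 μ) : X → ℝ) =ᵐ[μ]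
      fun x => (∑ i ∈ Finset.range n, h (τ^[i] x)) / n := by
  have h1 : birkhoffAverage ℝ (koop hmp) _root_.id n g =
      (n : ℝ)⁻¹ • ∑ i ∈ Finset.range n, (⇑(koop hmp))^[i] g := by
    simp only [birkhoffAverage, birkhoffSum, _root_.id]
  rw [h1]
  have h2 : (↑↑(∑ i ∈ Finset.range n, (⇑(koop hmp))^[i] g) : X → ℝ) =ᵐ[μ]
      fun x => ∑ i ∈ Finset.range n, h (τ^[i] x) := by
    clear h1
    induction n with
    | zero =>
      simp only [Finset.range_zero, Finset.sum_empty]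
      exact Lp.coeFn_zero ℝ 2 μ
    | succ n ih =>
      rw [Finset.sum_range_succ]
      refine (Lp.coeFn_add _ _).trans ?_
      filter_upwards [ih, koop_iter_coe hmp g h hg n] with x h3 h4
      rw [Pi.add_apply, h3, h4, Finset.sum_range_succ]
  refine (Lp.coeFn_smul _ _).trans ?_
  filter_upwards [h2] with x hx
  rw [Pi.smul_apply, hx, smul_eq_mul]
  ring

/-- fixed vectors of the Koopman operator of an ergodic map are constants -/
lemma fixed_const (hτ : Ergodic τ μ) (p : Lp ℝ 2 μ) (hp : koop hτ.toMeasurePreserving p = p) :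
    ∃ c : ℝ, (p : X → ℝ) =ᵐ[μ] Function.const X c := by
  apply hτ.quasiErgodic.ae_eq_const_of_ae_eq_comp_ae (Lp.aestronglyMeasurable p)
  have h1 := koop_coe hτ.toMeasurePreserving p
  rw [hp] at h1
  exact h1.symm

variable [IsProbabilityMeasure μ]

/-- the constant function one in `L²` -/
noncomputable def oneL : Lp ℝ 2 μ := (memLp_const (1 : ℝ)).toLp (fun _ => (1 : ℝ))

lemma oneL_coe : ((oneL : Lp ℝ 2 μ) : X → ℝ) =ᵐ[μ] fun _ => 1 := MemLp.coeFn_toLp _

lemma inner_oneL (f : Lp ℝ 2 μ) : ⟪(oneL : Lp ℝ 2 μ), f⟫_ℝ = ∫ x, f x ∂μ := by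
  rw [L2.inner_def]
  apply integral_congr_ae
  filter_upwards [oneL_coe (μ := μ)] with x hx
  rw [hx]; simp

lemma koop_oneL (hmp : MeasurePreserving τ μ μ) : koop hmp oneL = oneL := by
  apply Lp.ext
  refine (koop_coe hmp _).trans ?_
  refine (hmp.quasiMeasurePreserving.ae_eq_comp (oneL_coe (μ := μ))).trans ?_
  exact (oneL_coe (μ := μ)).symm

lemma norm_bound (f : Lp ℝ 2 μ) : ∫ x, ‖f x‖ ∂μ ≤ ‖f‖ := by
  have h2 : eLpNorm f 1 μ ≤ eLpNorm f 2 μ := by
    exact eLpNorm_le_eLpNorm_of_exponent_le (by norm_num) (Lp.aestronglyMeasurable f)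
  have h3 : ∫ x, ‖f x‖ ∂μ = (eLpNorm f 1 μ).toReal := by
    rw [eLpNorm_one_eq_lintegral_enorm]
    exact integral_norm_eq_lintegral_enorm (Lp.aestronglyMeasurable f)
  rw [h3, Lp.norm_def]
  exact ENNReal.toReal_mono (Lp.eLpNorm_ne_top f) h2

/-- L¹ mean ergodic theorem for bounded measurable functions. -/
theorem l1_ergodic (hτ : Ergodic τ μ) (h : X → ℝ) (hm : Measurable h) (hb : ∀ x, |h x| ≤ 1) :
    Tendsto (fun n : ℕ => ∫ x, |(∑ i ∈ Finset.range n, h (τ^[i] x)) / n - ∫ y, h y ∂μ| ∂μ)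
      atTop (𝓝 0) := by
  have hmem : MemLp h 2 μ := by
    apply MemLp.of_bound hm.aestronglyMeasurable 1
    exact Eventually.of_forall fun x => by simpa using hb x
  have hmp := hτ.toMeasurePreserving
  obtain ⟨g, hg⟩ : ∃ g : Lp ℝ 2 μ, (g : X → ℝ) =ᵐ[μ] h := ⟨hmem.toLp h, hmem.coeFn_toLp⟩
  have hvN := (koop hmp).tendsto_birkhoffAverage_orthogonalProjection (koop_norm hmp) g
  obtain ⟨p, hpK, hpo, hvN'⟩ : ∃ p : Lp ℝ 2 μ, koop hmp p = p ∧
      (∀ w : Lp ℝ 2 μ, koop hmp w = w → ⟪g - p, w⟫_ℝ = 0) ∧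
      Tendsto (birkhoffAverage ℝ (koop hmp) _root_.id · g) atTop (𝓝 p) := by
    refine ⟨_, ?_, ?_, hvN⟩
    · have := (((koop hmp).eqLocus (1 : Lp ℝ 2 μ →L[ℝ] Lp ℝ 2 μ)).orthogonalProjectionOnto g).2
      exact this
    · intro w hw
      exact ((koop hmp).eqLocus (1 : Lp ℝ 2 μ →L[ℝ] Lp ℝ 2 μ)).starProjection_inner_eq_zero g w hw
  obtain ⟨c, hc⟩ := fixed_const hτ p hpK
  have hcval : c = ∫ y, h y ∂μ := by
    have h5 := hpo oneL (koop_oneL hmp)
    rw [inner_sub_left, sub_eq_zero, real_inner_comm, real_inner_comm oneL p, inner_oneL,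
      inner_oneL] at h5
    have h2 : ∫ x, p x ∂μ = c := by
      rw [integral_congr_ae hc]; simp
    have h3 : ∫ x, g x ∂μ = ∫ y, h y ∂μ := integral_congr_ae hg
    rw [← h2, ← h5, h3]
  have hnorm : Tendsto (fun n => ‖birkhoffAverage ℝ (koop hmp) _root_.id n g - p‖) atTop (𝓝 0) :=
    tendsto_iff_norm_sub_tendsto_zero.1 hvN'
  refine squeeze_zero (fun n => integral_nonneg fun x => abs_nonneg _) (fun n => ?_) hnorm
  have h1 : ∫ x, |(∑ i ∈ Finset.range n, h (τ^[i] x)) / n - ∫ y, h y ∂μ| ∂μ =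
      ∫ x, ‖(birkhoffAverage ℝ (koop hmp) _root_.id n g - p : Lp ℝ 2 μ) x‖ ∂μ := by
    apply integral_congr_ae
    filter_upwards [Lp.coeFn_sub (birkhoffAverage ℝ (koop hmp) _root_.id n g) p,
      birk_coe hmp g h hg n, hc] with x h1 h2 h3
    rw [h1, Pi.sub_apply, h2, h3, Real.norm_eq_abs, hcval, Function.const_apply]
  rw [h1]
  exact norm_bound _

end

end Crest.Agent.R113.Transfer
end

-- ▼ part R113/TransferMain
section

/-! Row 113, S0149, tasks T13 + T14: the transfer theorem. -/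

set_option autoImplicit false
set_option linter.unusedSectionVars false

open MeasureTheory Filter Topology
open scoped InnerProductSpace ComplexConjugate

namespace Crest.Agent.R113.Transfer

section L2

lemma hasSum_sq (v : L2Z) : HasSum (fun k : ℤ => ‖v k‖ ^ 2) (‖v‖ ^ 2) := by
  have h1 := lp.norm_rpow_eq_tsum two_toReal_pos v
  have h2 := (lp.memℓp v).summable two_toReal_pos
  have h3 : (2 : ENNReal).toReal = ((2 : ℕ) : ℝ) := by norm_num
  rw [h3] at h1 h2
  simp only [Real.rpow_natCast] at h1 h2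
  rw [h1]
  exact h2.hasSum

lemma sum_sq_le (v : L2Z) (s : Finset ℤ) : ∑ k ∈ s, ‖v k‖ ^ 2 ≤ ‖v‖ ^ 2 :=
  sum_le_hasSum s (fun k _ => sq_nonneg _) (hasSum_sq v)

/-- tail mass of a vector of `ℓ²(ℤ)` off `(-R, R)` -/
noncomputable def tailv (v : L2Z) (R : ℕ) : ℝ :=
  ‖v‖ ^ 2 - ∑ d ∈ Finset.Ioo (-(R : ℤ)) R, ‖v d‖ ^ 2

lemma tailv_nonneg (v : L2Z) (R : ℕ) : 0 ≤ tailv v R := sub_nonneg.2 (sum_sq_le v _)

lemma tailv_le (v : L2Z) (R : ℕ) : tailv v R ≤ ‖v‖ ^ 2 :=
  sub_le_self _ (Finset.sum_nonneg fun _ _ => sq_nonneg _)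

lemma tailv_anti (v : L2Z) {R S : ℕ} (h : R ≤ S) : tailv v S ≤ tailv v R := by
  unfold tailv
  have : ∑ d ∈ Finset.Ioo (-(R : ℤ)) R, ‖v d‖ ^ 2 ≤ ∑ d ∈ Finset.Ioo (-(S : ℤ)) S, ‖v d‖ ^ 2 := by
    apply Finset.sum_le_sum_of_subset_of_nonneg
    · apply Finset.Ioo_subset_Ioo <;> omega
    · intro _ _ _; exact sq_nonneg _
  linarith

lemma tailv_tendsto (v : L2Z) : Tendsto (fun R : ℕ => tailv v R) atTop (𝓝 0) := by
  have h1 : Tendsto (fun R : ℕ => Finset.Ioo (-(R : ℤ)) R) atTop atTop := by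
    apply tendsto_atTop_finset_of_monotone
    · intro R S h
      apply Finset.Ioo_subset_Ioo <;> omega
    · intro k
      refine ⟨k.natAbs + 1, ?_⟩
      rw [Finset.mem_Ioo]; omega
  have h2 := (hasSum_sq v).comp h1
  have h3 := tendsto_const_nhds (x := ‖v‖ ^ 2) (f := (atTop : Filter ℕ)) |>.sub h2
  simpa [tailv] using h3

end L2

section Fib

variable {θ : ℝ} {F : UnitAddCircle → ℝ} {P : UnitAddCircle → (L2Z →L[ℂ] L2Z)}

local notation "tt" => ((θ : ℝ) : UnitAddCircle)

lemma cov_nat (hP : Fibres θ F P) (x : UnitAddCircle) (n : ℕ) (m m' : ℤ) :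
    (P (x + n • tt) (dz m') : ℤ → ℂ) m = (P x (dz (m' + n)) : ℤ → ℂ) (m + n) := by
  induction n generalizing m m' with
  | zero => simp
  | succ n ih =>
    have h1 : x + (n + 1) • tt = (x + n • tt) + tt := by rw [succ_nsmul, add_assoc]
    rw [h1, hP.cov, ih]
    have h2 : m' + 1 + (n : ℤ) = m' + ((n + 1 : ℕ) : ℤ) := by push_cast; ring
    have h3 : m + 1 + (n : ℤ) = m + ((n + 1 : ℕ) : ℤ) := by push_cast; ring
    rw [h2, h3]

lemma cov_int (hP : Fibres θ F P) (x : UnitAddCircle) (k : ℤ) (m m' : ℤ) :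
    (P (x + k • tt) (dz m') : ℤ → ℂ) m = (P x (dz (m' + k)) : ℤ → ℂ) (m + k) := by
  obtain ⟨n, rfl | rfl⟩ := k.eq_nat_or_neg
  · rw [natCast_zsmul]; exact cov_nat hP x n m m'
  · have h1 := cov_nat hP (x + (-(n : ℤ)) • tt) n (m + -(n : ℤ)) (m' + -(n : ℤ))
    have h2 : x + (-(n : ℤ)) • tt + n • tt = x := by
      rw [add_assoc, ← natCast_zsmul, ← add_smul]; simp
    rw [h2] at h1
    rw [h1, show m' + -(n : ℤ) + (n : ℤ) = m' by ring, show m + -(n : ℤ) + (n : ℤ) = m by ring]

lemma normsq_eq_re (hP : Fibres θ F P) (x : UnitAddCircle) (m : ℤ) :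
    ‖P x (dz m)‖ ^ 2 = ((P x (dz m) : ℤ → ℂ) m).re := by
  have h := proj_inner (hP.proj x) (dz m)
  rw [inner_dz] at h
  rw [h]; norm_cast

lemma normsq_shift (hP : Fibres θ F P) (x : UnitAddCircle) (k : ℤ) :
    ‖P (x + k • tt) (dz 0)‖ ^ 2 = ‖P x (dz k)‖ ^ 2 := by
  rw [normsq_eq_re hP, normsq_eq_re hP, cov_int hP]
  simp

lemma normsq_le_one (hP : Fibres θ F P) (x : UnitAddCircle) (m : ℤ) :
    ‖P x (dz m)‖ ^ 2 ≤ 1 := by
  have := proj_sub_norm (hP.proj x) (dz m)
  rw [norm_dz] at this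
  have h2 := sq_nonneg ‖dz m - P x (dz m)‖
  linarith

lemma meas_normsq (hP : Fibres θ F P) (m : ℤ) : Measurable fun x => ‖P x (dz m)‖ ^ 2 := by
  simp_rw [normsq_eq_re hP]
  exact Complex.measurable_re.comp (hP.meas m m)

lemma meas_entry (hP : Fibres θ F P) (m m' : ℤ) :
    Measurable fun x => ‖(P x (dz m') : ℤ → ℂ) m‖ ^ 2 :=
  ((hP.meas m m').norm).pow_const 2

/-- tail of the zeroth column -/
noncomputable def tl (P : UnitAddCircle → (L2Z →L[ℂ] L2Z)) (R : ℕ) (x : UnitAddCircle) : ℝ :=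
  tailv (P x (dz 0)) R

lemma tl_nonneg (R : ℕ) (x : UnitAddCircle) : 0 ≤ tl P R x := tailv_nonneg _ _

lemma tl_le_one (hP : Fibres θ F P) (R : ℕ) (x : UnitAddCircle) : tl P R x ≤ 1 :=
  (tailv_le _ _).trans (normsq_le_one hP x 0)

lemma tl_anti {R S : ℕ} (h : R ≤ S) (x : UnitAddCircle) : tl P S x ≤ tl P R x := tailv_anti _ h

lemma meas_tl (hP : Fibres θ F P) (R : ℕ) : Measurable (tl P R) := by
  unfold tl tailv
  exact (meas_normsq hP 0).sub (Finset.measurable_fun_sum _ fun d _ => meas_entry hP d 0)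

/-- tail of column `m` in terms of the tail at the shifted point -/
lemma tl_shift (hP : Fibres θ F P) (x : UnitAddCircle) (m : ℤ) (R : ℕ) :
    tl P R (x + m • tt) = ‖P x (dz m)‖ ^ 2 -
      ∑ d ∈ Finset.Ioo (-(R : ℤ)) R, ‖(P x (dz m) : ℤ → ℂ) (m + d)‖ ^ 2 := by
  unfold tl tailv
  rw [normsq_shift hP]
  congr 1
  apply Finset.sum_congr rfl
  intro d _
  rw [cov_int hP, zero_add, add_comm d m]

instance : IsProbabilityMeasure (volume : Measure UnitAddCircle) :=
  ⟨UnitAddCircle.measure_univ⟩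

lemma integrable_of_bdd {f : UnitAddCircle → ℝ} (hf : Measurable f) {C : ℝ} (h : ∀ x, |f x| ≤ C) :
    Integrable f := by
  apply Integrable.of_bound hf.aestronglyMeasurable C
  exact Eventually.of_forall fun x => by simpa using h x

lemma tl_integrable (hP : Fibres θ F P) (R : ℕ) : Integrable (tl P R) :=
  integrable_of_bdd (meas_tl hP R) (C := 1) fun x => by
    rw [abs_of_nonneg (tl_nonneg R x)]; exact tl_le_one hP R x

lemma tl_integral_tendsto (hP : Fibres θ F P) :
    Tendsto (fun R : ℕ => ∫ x, tl P R x) atTop (𝓝 0) := by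
  have h := tendsto_integral_of_dominated_convergence (μ := (volume : Measure UnitAddCircle))
    (F := fun R x => tl P R x) (f := fun _ => (0 : ℝ)) (fun _ => (1 : ℝ))
    (fun R => (meas_tl hP R).aestronglyMeasurable) (integrable_const _)
    (fun R => Eventually.of_forall fun x => by
      rw [Real.norm_eq_abs, abs_of_nonneg (tl_nonneg R x)]; exact tl_le_one hP R x)
    (Eventually.of_forall fun x => tailv_tendsto _)
  simpa using h

lemma integral_shift (f : UnitAddCircle → ℝ) (a : UnitAddCircle) :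
    ∫ x, f (x + a) = ∫ x, f x := integral_add_right_eq_self f a

/-- pointwise bound of the defect by tails -/
lemma defect_le (hP : Fibres θ F P) (x : UnitAddCircle) (q : ℕ) :
    defect (P x) q ≤ ∑ m : Fin q, tl P (min ((m : ℕ) + 1) (q - m)) (x + ((m : ℕ) : ℤ) • tt) := by
  unfold defect
  apply Finset.sum_le_sum
  intro m _
  rw [tl_shift hP]
  apply sub_le_sub_left
  have hm := m.2
  rw [Fin.sum_univ_eq_sum_range (fun k => ‖(P x (dz ((m : ℕ) : ℤ)) : ℤ → ℂ) ((k : ℕ) : ℤ)‖ ^ 2) q]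
  have h1 : ∑ d ∈ Finset.Ioo (-((min ((m : ℕ) + 1) (q - m) : ℕ) : ℤ))
        ((min ((m : ℕ) + 1) (q - m) : ℕ) : ℤ),
        ‖(P x (dz ((m : ℕ) : ℤ)) : ℤ → ℂ) (((m : ℕ) : ℤ) + d)‖ ^ 2 =
      ∑ k ∈ (Finset.Ioo (-((min ((m : ℕ) + 1) (q - m) : ℕ) : ℤ))
        ((min ((m : ℕ) + 1) (q - m) : ℕ) : ℤ)).image (fun d => (((m : ℕ) : ℤ) + d).toNat),
        ‖(P x (dz ((m : ℕ) : ℤ)) : ℤ → ℂ) ((k : ℕ) : ℤ)‖ ^ 2 := by
    rw [Finset.sum_image]
    · apply Finset.sum_congr rfl
      intro d hd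
      rw [Finset.mem_Ioo] at hd
      have : ((((m : ℕ) : ℤ) + d).toNat : ℤ) = ((m : ℕ) : ℤ) + d := by
        rw [Int.toNat_of_nonneg]; omega
      rw [this]
    · intro d hd d' hd' h
      simp only [Finset.coe_Ioo, Set.mem_Ioo] at hd hd'
      simp only at h
      omega
  rw [h1]
  apply Finset.sum_le_sum_of_subset_of_nonneg
  · intro k hk
    rw [Finset.mem_image] at hk
    obtain ⟨d, hd, rfl⟩ := hk
    rw [Finset.mem_Ioo] at hd
    rw [Finset.mem_range]
    omega
  · intro _ _ _; exact sq_nonneg _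

lemma meas_defect (hP : Fibres θ F P) (q : ℕ) : Measurable fun x => defect (P x) q := by
  unfold defect
  apply Finset.measurable_fun_sum
  intro m _
  exact (meas_normsq hP _).sub (Finset.measurable_fun_sum _ fun m' _ => meas_entry hP _ _)

lemma defect_nonneg (hP : Fibres θ F P) (x : UnitAddCircle) (q : ℕ) : 0 ≤ defect (P x) q := by
  unfold defect
  apply Finset.sum_nonneg
  intro m _
  rw [sub_nonneg]
  have : ∑ m' : Fin q, ‖(P x (dz ((m : ℕ) : ℤ)) : ℤ → ℂ) ((m' : ℕ) : ℤ)‖ ^ 2 =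
      ∑ k ∈ (Finset.univ : Finset (Fin q)).map ⟨fun m' : Fin q => ((m' : ℕ) : ℤ), fun a b h => by
        apply Fin.ext; simpa using h⟩, ‖(P x (dz ((m : ℕ) : ℤ)) : ℤ → ℂ) k‖ ^ 2 := by
    rw [Finset.sum_map]; rfl
  rw [this]
  exact sum_sq_le _ _

lemma defect_le_q (hP : Fibres θ F P) (x : UnitAddCircle) (q : ℕ) : defect (P x) q ≤ q := by
  unfold defect
  calc _ ≤ ∑ m : Fin q, (1 : ℝ) := by
        apply Finset.sum_le_sum
        intro m _
        have h1 := normsq_le_one hP x ((m : ℕ) : ℤ)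
        have h2 : 0 ≤ ∑ m' : Fin q, ‖(P x (dz ((m : ℕ) : ℤ)) : ℤ → ℂ) ((m' : ℕ) : ℤ)‖ ^ 2 :=
          Finset.sum_nonneg fun _ _ => sq_nonneg _
        linarith
    _ = q := by simp

lemma defect_integral (hP : Fibres θ F P) (δ : ℝ) (hδ : 0 < δ) :
    ∃ q0 : ℕ, ∀ q ≥ q0, ∫ x, defect (P x) q ≤ δ * q := by
  obtain ⟨R0, hR0⟩ := ((tl_integral_tendsto hP).eventually (gt_mem_nhds (half_pos hδ))).exists
  refine ⟨⌈4 * R0 / δ⌉₊, fun q hq => ?_⟩
  have hq' : 4 * (R0 : ℝ) ≤ δ * q := by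
    have h1 : 4 * R0 / δ ≤ (q : ℝ) := (Nat.le_ceil _).trans (by exact_mod_cast hq)
    rw [div_le_iff₀ hδ] at h1; linarith
  -- pointwise bound for the integral of each term
  have hterm : ∀ m : Fin q, ∫ x, tl P (min ((m : ℕ) + 1) (q - m)) (x + ((m : ℕ) : ℤ) • tt) ≤
      (if R0 ≤ min ((m : ℕ) + 1) (q - m) then δ / 2 else 1) := by
    intro m
    rw [integral_shift (tl P (min ((m : ℕ) + 1) (q - m)))]
    split_ifs with h
    · refine le_trans ?_ hR0.le
      exact integral_mono (tl_integrable hP _) (tl_integrable hP _) fun x => tl_anti h x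
    · calc ∫ x, tl P (min ((m : ℕ) + 1) (q - m)) x ≤ ∫ x : UnitAddCircle, (1 : ℝ) :=
            integral_mono (tl_integrable hP _) (integrable_const _) fun x => tl_le_one hP _ x
        _ = 1 := by simp
  have hint : ∀ m : Fin q, Integrable
      (fun x => tl P (min ((m : ℕ) + 1) (q - m)) (x + ((m : ℕ) : ℤ) • tt)) := by
    intro m
    apply integrable_of_bdd (C := 1)
    · exact (meas_tl hP _).comp (measurable_id.add_const _)
    · intro x; rw [abs_of_nonneg (tl_nonneg _ _)]; exact tl_le_one hP _ _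
  have hdint : Integrable fun x => defect (P x) q := by
    apply integrable_of_bdd (meas_defect hP q) (C := q)
    intro x
    rw [abs_of_nonneg (defect_nonneg hP x q)]
    exact defect_le_q hP x q
  calc ∫ x, defect (P x) q
      ≤ ∫ x, ∑ m : Fin q, tl P (min ((m : ℕ) + 1) (q - m)) (x + ((m : ℕ) : ℤ) • tt) :=
        integral_mono hdint (integrable_finsetSum _ fun m _ => hint m) fun x => defect_le hP x q
    _ = ∑ m : Fin q, ∫ x, tl P (min ((m : ℕ) + 1) (q - m)) (x + ((m : ℕ) : ℤ) • tt) :=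
        integral_finsetSum _ fun m _ => hint m
    _ ≤ ∑ m : Fin q, (if R0 ≤ min ((m : ℕ) + 1) (q - m) then δ / 2 else 1) :=
        Finset.sum_le_sum fun m _ => hterm m
    _ ≤ ∑ m : Fin q, (δ / 2 + (if R0 ≤ min ((m : ℕ) + 1) (q - m) then 0 else 1)) := by
        apply Finset.sum_le_sum
        intro m _
        split_ifs <;> linarith
    _ = δ / 2 * q + ∑ m : Fin q, (if R0 ≤ min ((m : ℕ) + 1) (q - m) then (0 : ℝ) else 1) := by
        rw [Finset.sum_add_distrib]; simp [mul_comm]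
    _ ≤ δ / 2 * q + 2 * R0 := by
        have h1 : ∑ m : Fin q, (if R0 ≤ min ((m : ℕ) + 1) (q - m) then (0 : ℝ) else 1) =
            ((Finset.univ.filter (fun m : Fin q => ¬ R0 ≤ min ((m : ℕ) + 1) (q - m))).card : ℝ) := by
          rw [Finset.card_filter]
          push_cast
          apply Finset.sum_congr rfl
          intro m _
          split_ifs <;> simp_all
        rw [h1]
        have h2 : (Finset.univ.filter (fun m : Fin q => ¬ R0 ≤ min ((m : ℕ) + 1) (q - m))).card ≤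
            2 * R0 := by
          have h3 : (Finset.univ.filter (fun m : Fin q => ¬ R0 ≤ min ((m : ℕ) + 1) (q - m))) ⊆
              (Finset.univ.filter (fun m : Fin q => (m : ℕ) < R0)) ∪
              (Finset.univ.filter (fun m : Fin q => q < (m : ℕ) + R0)) := by
            intro m hm
            simp only [Finset.mem_filter, Finset.mem_univ, true_and, Finset.mem_union] at hm ⊢
            omega
          refine (Finset.card_le_card h3).trans ((Finset.card_union_le _ _).trans ?_)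
          have h4 : (Finset.univ.filter (fun m : Fin q => (m : ℕ) < R0)).card ≤ R0 := by
            have : (Finset.univ.filter (fun m : Fin q => (m : ℕ) < R0)).card ≤
                (Finset.range R0).card := by
              apply Finset.card_le_card_of_injOn (fun m : Fin q => (m : ℕ))
              · intro m hm
                simpa using hm
              · intro a _ b _ h; exact Fin.ext h
            simpa using this
          have h5 : (Finset.univ.filter (fun m : Fin q => q < (m : ℕ) + R0)).card ≤ R0 := by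
            have : (Finset.univ.filter (fun m : Fin q => q < (m : ℕ) + R0)).card ≤
                (Finset.range R0).card := by
              apply Finset.card_le_card_of_injOn (fun m : Fin q => q - 1 - (m : ℕ))
              · intro m hm
                have hm' : q < (m : ℕ) + R0 := by simpa using hm
                have := m.2
                simp only [Finset.coe_range, Set.mem_Iio]
                omega
              · intro a _ b _ h
                have := a.2; have := b.2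
                apply Fin.ext
                simp only at h
                omega
            simpa using this
          omega
        have h6 : ((Finset.univ.filter
            (fun m : Fin q => ¬ R0 ≤ min ((m : ℕ) + 1) (q - m))).card : ℝ) ≤ 2 * R0 := by
          exact_mod_cast h2
        linarith
    _ ≤ δ * q := by linarith

lemma iter_rot (x : UnitAddCircle) (i : ℕ) :
    (fun y : UnitAddCircle => y + tt)^[i] x = x + ((i : ℕ) : ℤ) • tt := by
  induction i with
  | zero => simp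
  | succ i ih =>
    rw [Function.iterate_succ_apply', ih]
    push_cast
    rw [add_smul, one_smul, add_assoc]

lemma ergodic_rot (hθ : Irrational θ) : Ergodic (fun y : UnitAddCircle => y + tt) := by
  rw [AddCircle.ergodic_add_right]
  rw [addOrderOf_eq_zero_iff']
  intro n hn h
  rw [← AddCircle.coe_nsmul, AddCircle.coe_eq_zero_iff] at h
  obtain ⟨k, hk⟩ := h
  have hk' : (k : ℝ) = n * θ := by simpa using hk
  have hn0 : (n : ℝ) ≠ 0 := by exact_mod_cast hn.ne'
  have : θ = ((k : ℚ) / (n : ℚ) : ℚ) := by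
    push_cast
    rw [hk']; field_simp
  exact hθ ⟨_, this.symm⟩

/-- the diagonal function -/
noncomputable def hf (P : UnitAddCircle → (L2Z →L[ℂ] L2Z)) (x : UnitAddCircle) : ℝ :=
  ‖P x (dz 0)‖ ^ 2

lemma hf_meas (hP : Fibres θ F P) : Measurable (hf P) := meas_normsq hP 0

lemma hf_nonneg (x : UnitAddCircle) : 0 ≤ hf P x := sq_nonneg _

lemma hf_le_one (hP : Fibres θ F P) (x : UnitAddCircle) : hf P x ≤ 1 := normsq_le_one hP x 0

lemma hf_abs (hP : Fibres θ F P) (x : UnitAddCircle) : |hf P x| ≤ 1 := by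
  rw [abs_of_nonneg (hf_nonneg x)]; exact hf_le_one hP x

lemma hf_shift (hP : Fibres θ F P) (x : UnitAddCircle) (k : ℤ) :
    hf P (x + k • tt) = ‖P x (dz k)‖ ^ 2 := normsq_shift hP x k

/-- the ergodic average in `L¹` -/
lemma erg_avg (hθ : Irrational θ) (hP : Fibres θ F P) (ρ : ℝ) (hρ : ρ = ∫ x, hf P x)
    (δ : ℝ) (hδ : 0 < δ) : ∃ n0 : ℕ, ∀ n ≥ n0, ∀ a : UnitAddCircle,
      ∫ x, |∑ i ∈ Finset.range n, (hf P (x + a + ((i : ℕ) : ℤ) • tt) - ρ)| ≤ δ * n := by
  have h := l1_ergodic (ergodic_rot hθ) (hf P) (hf_meas hP) (hf_abs hP)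
  rw [← hρ] at h
  have h2 := h.eventually (gt_mem_nhds hδ)
  rw [eventually_atTop] at h2
  obtain ⟨n0, hn0⟩ := h2
  refine ⟨max n0 1, fun n hn a => ?_⟩
  have hn1 : 0 < n := lt_of_lt_of_le one_pos ((le_max_right _ _).trans hn)
  have hn1' : (0 : ℝ) < n := by exact_mod_cast hn1
  have h3 := hn0 n ((le_max_left _ _).trans hn)
  have h4 : ∫ x, |∑ i ∈ Finset.range n, (hf P (x + a + ((i : ℕ) : ℤ) • tt) - ρ)| =
      ∫ x, |∑ i ∈ Finset.range n, (hf P (x + ((i : ℕ) : ℤ) • tt) - ρ)| :=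
    integral_shift (fun x => |∑ i ∈ Finset.range n, (hf P (x + ((i : ℕ) : ℤ) • tt) - ρ)|) a
  have h5 : ∫ x, |∑ i ∈ Finset.range n, (hf P (x + ((i : ℕ) : ℤ) • tt) - ρ)| =
      n * ∫ x, |(∑ i ∈ Finset.range n, hf P ((fun y : UnitAddCircle => y + tt)^[i] x)) / n - ρ| := by
    rw [← integral_const_mul]
    congr 1
    funext x
    simp_rw [iter_rot]
    rw [Finset.sum_sub_distrib, Finset.sum_const, Finset.card_range, nsmul_eq_mul]
    rw [← abs_of_pos hn1', ← abs_mul, abs_of_pos hn1']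
    congr 1
    field_simp
  rw [h4, h5]
  have h6 := mul_le_mul_of_nonneg_left h3.le hn1'.le
  linarith

/-- comparison of entries -/
lemma norm_sq_le_two (a b : ℂ) : ‖a‖ ^ 2 ≤ 2 * ‖b‖ ^ 2 + 2 * ‖a - b‖ ^ 2 := by
  have h1 : ‖a‖ ≤ ‖b‖ + ‖a - b‖ := by
    have : a = b + (a - b) := by ring
    calc ‖a‖ = ‖b + (a - b)‖ := by rw [← this]
      _ ≤ _ := norm_add_le _ _
  nlinarith [sq_nonneg (‖b‖ - ‖a - b‖), norm_nonneg a, norm_nonneg b, norm_nonneg (a - b)]

/-- deterministic sufficient condition for `Good` -/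
lemma good_of (hF0 : ∀ x, 0 ≤ F x) (hF1 : ∀ x, F x ≤ 1) (hP : Fibres θ F P) (ρ η₁ : ℝ) (l' : ℕ)
    (η' : ℝ) (R : ℕ) (c : ℝ) (nstar : ℕ) (η : ℝ) (q : ℕ) (x : UnitAddCircle)
    (κ : ℝ) (hκη : κ ≤ η / 2) (hκη' : κ ≤ η' / 4) (hκη₁ : κ ≤ η₁ / 2)
    (ha : 2 * Real.exp (4 * max c 1) * defect (P x) q ≤ κ * q)
    (hb : |∑ i ∈ Finset.range q, (hf P (x + ((i : ℕ) : ℤ) • tt) - ρ)| ≤ η / 2 * q)
    (hc : ∑ m ∈ Finset.range q, tl P R (x + ((m : ℕ) : ℤ) • tt) ≤ η' / 4 * q)
    (hd : ∑ m ∈ Finset.range q, |∑ i ∈ Finset.range l',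
      (hf P (x + ((m : ℕ) : ℤ) • tt + ((i : ℕ) : ℤ) • tt) - ρ)| ≤ η₁ / 2 * l' * q)
    (hn : (nstar : ℝ) ≤ η / 2 * q) :
    Good θ F ρ η₁ l' η' R c nstar η q x := by
  have hw : ∀ j : ℤ, |F (x + j • tt)| ≤ 1 := fun j => by
    rw [abs_of_nonneg (hF0 _)]; exact hF1 _
  have hinv := hP.inv x (wsh (fun m => F (x + m • tt)) hw) (fun m => wsh_single m)
  obtain ⟨E, h1, h3, h5, h4⟩ := determ (hP.proj x) hinv q (max c 1) (le_max_right _ _)
  have hq0 : (0 : ℝ) ≤ q := Nat.cast_nonneg _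
  have hD0 := defect_nonneg hP x q
  have he24 : Real.exp (2 * max c 1) * defect (P x) q ≤ κ * q / 2 := by
    have : Real.exp (2 * max c 1) ≤ Real.exp (4 * max c 1) :=
      Real.exp_le_exp.2 (by have := le_max_right c 1; linarith)
    nlinarith
  have hκq : κ * q ≤ η / 2 * q := mul_le_mul_of_nonneg_right hκη hq0
  have hκq' : κ * q ≤ η' / 4 * q := mul_le_mul_of_nonneg_right hκη' hq0
  have hκq₁ : κ * q ≤ η₁ / 2 * q := mul_le_mul_of_nonneg_right hκη₁ hq0
  have he0 : 0 ≤ Real.exp (2 * max c 1) * defect (P x) q := mul_nonneg (Real.exp_pos _).le hD0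
  have hκ0 : 0 ≤ κ * q := by linarith
  have hcol : ∀ k : ℕ, ‖P x (dz (k : ℤ))‖ ^ 2 = hf P (x + ((k : ℕ) : ℤ) • tt) := fun k =>
    (hf_shift hP x k).symm
  refine ⟨E, ?_, ?_, ?_, ?_⟩
  · -- (E1)
    have h10 : ∑ m : Fin q, ‖P x (dz ((m : ℕ) : ℤ))‖ ^ 2 =
        ∑ i ∈ Finset.range q, hf P (x + ((i : ℕ) : ℤ) • tt) := by
      rw [Fin.sum_univ_eq_sum_range (fun k => ‖P x (dz ((k : ℕ) : ℤ))‖ ^ 2) q]
      exact Finset.sum_congr rfl fun k _ => hcol k
    rw [h10] at h1
    have h11 : ∑ i ∈ Finset.range q, (hf P (x + ((i : ℕ) : ℤ) • tt) - ρ) =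
        ∑ i ∈ Finset.range q, hf P (x + ((i : ℕ) : ℤ) • tt) - ρ * q := by
      rw [Finset.sum_sub_distrib, Finset.sum_const, Finset.card_range, nsmul_eq_mul]; ring
    rw [h11] at hb
    have h12 : (Module.finrank ℂ E : ℝ) - ρ * q =
        ((Module.finrank ℂ E : ℝ) - ∑ i ∈ Finset.range q, hf P (x + ((i : ℕ) : ℤ) • tt)) +
        (∑ i ∈ Finset.range q, hf P (x + ((i : ℕ) : ℤ) • tt) - ρ * q) := by ring
    rw [h12]
    refine (abs_add_le _ _).trans ?_
    linarith
  · -- (E3)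
    intro n hn'
    obtain ⟨E', hE'le, hE'dim, hE'⟩ := h3 n
    refine ⟨E', hE'le, ?_, ?_⟩
    · have hnn : (n : ℝ) ≤ nstar := by exact_mod_cast hn'
      linarith
    · intro v hv
      obtain ⟨h20, h21⟩ := hE' v hv
      refine ⟨h20, ?_⟩
      rw [shiftPow_eq]
      refine h21.trans ?_
      apply mul_le_mul_of_nonneg_right _ (norm_nonneg _)
      apply Real.exp_le_exp.2
      have := le_max_left c 1
      linarith
  · -- (E4)
    have h30 : ∀ m m' : Fin q, ‖⟪dlt m, E.starProjection (dlt m')⟫_ℂ‖ ^ 2 ≤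
        2 * ‖(P x (dz ((m' : ℕ) : ℤ)) : ℤ → ℂ) ((m : ℕ) : ℤ)‖ ^ 2 +
        2 * ‖⟪dlt m, E.starProjection (dlt m')⟫_ℂ -
          (P x (dz ((m' : ℕ) : ℤ)) : ℤ → ℂ) ((m : ℕ) : ℤ)‖ ^ 2 := fun m m' => norm_sq_le_two _ _
    -- mass of the columns off the band
    have h31 : ∀ m' : Fin q, ∑ m : Fin q, (if (R : ℤ) ≤ |((m : ℕ) : ℤ) - ((m' : ℕ) : ℤ)| then
        ‖(P x (dz ((m' : ℕ) : ℤ)) : ℤ → ℂ) ((m : ℕ) : ℤ)‖ ^ 2 else 0) ≤
        tl P R (x + ((m' : ℕ) : ℤ) • tt) := by
      intro m'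
      rw [tl_shift hP, le_sub_iff_add_le]
      rw [← Finset.sum_filter]
      have h32 : ∑ m ∈ Finset.univ.filter (fun m : Fin q =>
            (R : ℤ) ≤ |((m : ℕ) : ℤ) - ((m' : ℕ) : ℤ)|),
          ‖(P x (dz ((m' : ℕ) : ℤ)) : ℤ → ℂ) ((m : ℕ) : ℤ)‖ ^ 2 =
          ∑ k ∈ (Finset.univ.filter (fun m : Fin q =>
            (R : ℤ) ≤ |((m : ℕ) : ℤ) - ((m' : ℕ) : ℤ)|)).image (fun m : Fin q => ((m : ℕ) : ℤ)),
          ‖(P x (dz ((m' : ℕ) : ℤ)) : ℤ → ℂ) k‖ ^ 2 := by
        rw [Finset.sum_image]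
        intro a _ b _ hab
        apply Fin.ext
        simpa using hab
      have h33 : ∑ d ∈ Finset.Ioo (-(R : ℤ)) R,
          ‖(P x (dz ((m' : ℕ) : ℤ)) : ℤ → ℂ) (((m' : ℕ) : ℤ) + d)‖ ^ 2 =
          ∑ k ∈ (Finset.Ioo (-(R : ℤ)) R).image (fun d => ((m' : ℕ) : ℤ) + d),
          ‖(P x (dz ((m' : ℕ) : ℤ)) : ℤ → ℂ) k‖ ^ 2 := by
        rw [Finset.sum_image]
        intro a _ b _ hab
        simpa using hab
      rw [h32, h33, ← Finset.sum_union]
      · exact sum_sq_le _ _
      · rw [Finset.disjoint_left]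
        intro k hk hk'
        rw [Finset.mem_image] at hk hk'
        obtain ⟨m, hm, rfl⟩ := hk
        obtain ⟨d, hd, hd'⟩ := hk'
        rw [Finset.mem_filter] at hm
        rw [Finset.mem_Ioo] at hd
        have : |((m : ℕ) : ℤ) - ((m' : ℕ) : ℤ)| < R := by
          rw [abs_lt]; omega
        exact absurd hm.2 (not_le.2 this)
    calc ∑ m : Fin q, ∑ m' : Fin q, (if (R : ℤ) ≤ |((m : ℕ) : ℤ) - ((m' : ℕ) : ℤ)| then
          ‖⟪dlt m, E.starProjection (dlt m')⟫_ℂ‖ ^ 2 else 0)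
        ≤ ∑ m : Fin q, ∑ m' : Fin q, (2 * (if (R : ℤ) ≤ |((m : ℕ) : ℤ) - ((m' : ℕ) : ℤ)| then
          ‖(P x (dz ((m' : ℕ) : ℤ)) : ℤ → ℂ) ((m : ℕ) : ℤ)‖ ^ 2 else 0) +
          2 * ‖⟪dlt m, E.starProjection (dlt m')⟫_ℂ -
          (P x (dz ((m' : ℕ) : ℤ)) : ℤ → ℂ) ((m : ℕ) : ℤ)‖ ^ 2) := by
          apply Finset.sum_le_sum; intro m _
          apply Finset.sum_le_sum; intro m' _
          split_ifs
          · exact h30 m m'
          · have := sq_nonneg ‖⟪dlt m, E.starProjection (dlt m')⟫_ℂ -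
              (P x (dz ((m' : ℕ) : ℤ)) : ℤ → ℂ) ((m : ℕ) : ℤ)‖
            linarith
      _ = 2 * ∑ m' : Fin q, ∑ m : Fin q, (if (R : ℤ) ≤ |((m : ℕ) : ℤ) - ((m' : ℕ) : ℤ)| then
          ‖(P x (dz ((m' : ℕ) : ℤ)) : ℤ → ℂ) ((m : ℕ) : ℤ)‖ ^ 2 else 0) +
          2 * ∑ m' : Fin q, ∑ m : Fin q, ‖⟪dlt m, E.starProjection (dlt m')⟫_ℂ -
          (P x (dz ((m' : ℕ) : ℤ)) : ℤ → ℂ) ((m : ℕ) : ℤ)‖ ^ 2 := by
          rw [Finset.sum_comm]
          simp_rw [Finset.sum_add_distrib, ← Finset.mul_sum]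
      _ ≤ 2 * ∑ m' : Fin q, tl P R (x + ((m' : ℕ) : ℤ) • tt) +
          2 * (Real.exp (2 * max c 1) * defect (P x) q) := by
          apply add_le_add
          · apply mul_le_mul_of_nonneg_left _ zero_le_two
            exact Finset.sum_le_sum fun m' _ => h31 m'
          · apply mul_le_mul_of_nonneg_left h4 zero_le_two
      _ ≤ η' * q := by
          rw [Fin.sum_univ_eq_sum_range (fun k => tl P R (x + ((k : ℕ) : ℤ) • tt)) q]
          linarith
  · -- (E5)
    have hdg : ∀ k : ℕ, k < q → |hdiag E k - hf P (x + ((k : ℕ) : ℤ) • tt)| =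
        if h : k < q then |‖E.starProjection (dlt (⟨k, h⟩ : Fin q))‖ ^ 2 -
          ‖P x (dz ((k : ℕ) : ℤ))‖ ^ 2| else 0 := by
      intro k hk
      rw [dif_pos hk]
      unfold hdiag
      rw [dif_pos hk, hcol]
    have hsumdiag : ∑ k ∈ Finset.range q, |hdiag E k - hf P (x + ((k : ℕ) : ℤ) • tt)| ≤
        Real.exp (2 * max c 1) * defect (P x) q := by
      refine le_trans (le_of_eq ?_) h5
      rw [← Fin.sum_univ_eq_sum_range
        (fun k => |hdiag E k - hf P (x + ((k : ℕ) : ℤ) • tt)|) q]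
      apply Finset.sum_congr rfl
      intro m _
      rw [hdg m m.2, dif_pos m.2]
    have hterm : ∀ m ∈ Finset.range (q - l'), |∑ i ∈ Finset.range l', (hdiag E (m + i) - ρ)| ≤
        ∑ i ∈ Finset.range l', |hdiag E (m + i) - hf P (x + ((m + i : ℕ) : ℤ) • tt)| +
        |∑ i ∈ Finset.range l', (hf P (x + ((m : ℕ) : ℤ) • tt + ((i : ℕ) : ℤ) • tt) - ρ)| := by
      intro m _
      have h40 : ∑ i ∈ Finset.range l', (hdiag E (m + i) - ρ) =
          ∑ i ∈ Finset.range l', (hdiag E (m + i) - hf P (x + ((m + i : ℕ) : ℤ) • tt)) +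
          ∑ i ∈ Finset.range l', (hf P (x + ((m : ℕ) : ℤ) • tt + ((i : ℕ) : ℤ) • tt) - ρ) := by
        rw [← Finset.sum_add_distrib]
        apply Finset.sum_congr rfl
        intro i _
        have : x + ((m : ℕ) : ℤ) • tt + ((i : ℕ) : ℤ) • tt = x + ((m + i : ℕ) : ℤ) • tt := by
          push_cast; rw [add_smul, add_assoc]
        rw [this]; ring
      rw [h40]
      refine (abs_add_le _ _).trans ?_
      gcongr
      exact Finset.abs_sum_le_sum_abs _ _
    have hfirst : ∑ m ∈ Finset.range (q - l'), ∑ i ∈ Finset.range l',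
        |hdiag E (m + i) - hf P (x + ((m + i : ℕ) : ℤ) • tt)| ≤
        l' * (Real.exp (2 * max c 1) * defect (P x) q) := by
      rw [Finset.sum_comm]
      calc _ ≤ ∑ i ∈ Finset.range l', (Real.exp (2 * max c 1) * defect (P x) q) := by
            apply Finset.sum_le_sum
            intro i hi
            rw [Finset.mem_range] at hi
            refine le_trans ?_ hsumdiag
            have h41 : ∑ m ∈ Finset.range (q - l'),
                |hdiag E (m + i) - hf P (x + ((m + i : ℕ) : ℤ) • tt)| =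
                ∑ k ∈ (Finset.range (q - l')).image (fun m => m + i),
                |hdiag E k - hf P (x + ((k : ℕ) : ℤ) • tt)| := by
              rw [Finset.sum_image]
              intro a _ b _ hab
              simpa using hab
            rw [h41]
            apply Finset.sum_le_sum_of_subset_of_nonneg
            · intro k hk
              rw [Finset.mem_image] at hk
              obtain ⟨m, hm, rfl⟩ := hk
              rw [Finset.mem_range] at hm ⊢
              omega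
            · intro _ _ _; exact abs_nonneg _
        _ = _ := by rw [Finset.sum_const, Finset.card_range, nsmul_eq_mul]
    have hsecond : ∑ m ∈ Finset.range (q - l'),
        |∑ i ∈ Finset.range l', (hf P (x + ((m : ℕ) : ℤ) • tt + ((i : ℕ) : ℤ) • tt) - ρ)| ≤
        η₁ / 2 * l' * q := by
      refine le_trans ?_ hd
      apply Finset.sum_le_sum_of_subset_of_nonneg
      · intro m hm; rw [Finset.mem_range] at hm ⊢; omega
      · intro _ _ _; exact abs_nonneg _
    calc _ ≤ ∑ m ∈ Finset.range (q - l'), (∑ i ∈ Finset.range l',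
          |hdiag E (m + i) - hf P (x + ((m + i : ℕ) : ℤ) • tt)| +
          |∑ i ∈ Finset.range l', (hf P (x + ((m : ℕ) : ℤ) • tt + ((i : ℕ) : ℤ) • tt) - ρ)|) :=
          Finset.sum_le_sum hterm
      _ = _ := Finset.sum_add_distrib
      _ ≤ l' * (Real.exp (2 * max c 1) * defect (P x) q) + η₁ / 2 * l' * q :=
          add_le_add hfirst hsecond
      _ ≤ η₁ * l' * q := by
          have hl0 : (0 : ℝ) ≤ l' := Nat.cast_nonneg _
          have : (l' : ℝ) * (Real.exp (2 * max c 1) * defect (P x) q) ≤ l' * (η₁ / 2 * q) := by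
            apply mul_le_mul_of_nonneg_left _ hl0
            linarith
          nlinarith

end Fib

/-- T13 + T14: the transfer theorem. -/
theorem transfer : S_Transfer := by
  intro θ hθ F hF0 hF1 P hP ρ hρ ε hε η₁ hη₁
  have hρ' : ρ = ∫ x, hf P x := hρ
  have hε4 : 0 < ε / 4 := by linarith
  -- choice of l0
  obtain ⟨l0, hl0⟩ := erg_avg hθ hP ρ hρ' (η₁ / 2 * (ε / 4)) (by positivity)
  refine ⟨max l0 1, fun l' hl' η' hη' => ?_⟩
  have hl1 : 1 ≤ l' := (le_max_right _ _).trans hl'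
  have hl1' : (0 : ℝ) < l' := by exact_mod_cast hl1
  have hl0' := hl0 l' ((le_max_left _ _).trans hl')
  -- choice of R
  obtain ⟨R, hR⟩ := ((tl_integral_tendsto hP).eventually
    (gt_mem_nhds (show 0 < η' / 4 * (ε / 4) by positivity))).exists
  refine ⟨R, fun c nstar η hη => ?_⟩
  set κ : ℝ := min (η / 2) (min (η' / 4) (η₁ / 2)) with hκ
  have hκ0 : 0 < κ := by
    rw [hκ]; apply lt_min; · linarith
    apply lt_min <;> linarith
  have hκ1 : κ ≤ η / 2 := min_le_left _ _
  have hκ2 : κ ≤ η' / 4 := (min_le_right _ _).trans (min_le_left _ _)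
  have hκ3 : κ ≤ η₁ / 2 := (min_le_right _ _).trans (min_le_right _ _)
  set C : ℝ := 2 * Real.exp (4 * max c 1) with hC
  have hC0 : 0 < C := by positivity
  obtain ⟨q1, hq1⟩ := defect_integral hP (κ * (ε / 4) / C) (by positivity)
  obtain ⟨q2, hq2⟩ := erg_avg hθ hP ρ hρ' (η / 2 * (ε / 4)) (by positivity)
  refine ⟨max (max q1 q2) (max (⌈(nstar : ℝ) / (η / 2)⌉₊) 1), fun q hq => ?_⟩
  have hqq1 : q1 ≤ q := ((le_max_left _ _).trans (le_max_left _ _)).trans hq
  have hqq2 : q2 ≤ q := ((le_max_right _ _).trans (le_max_left _ _)).trans hq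
  have hqq3 : ⌈(nstar : ℝ) / (η / 2)⌉₊ ≤ q := ((le_max_left _ _).trans (le_max_right _ _)).trans hq
  have hqq4 : 1 ≤ q := ((le_max_right _ _).trans (le_max_right _ _)).trans hq
  have hq0 : (0 : ℝ) < q := by exact_mod_cast hqq4
  have hnst : (nstar : ℝ) ≤ η / 2 * q := by
    have h1 : (nstar : ℝ) / (η / 2) ≤ q := (Nat.le_ceil _).trans (by exact_mod_cast hqq3)
    rw [div_le_iff₀ (by linarith)] at h1; linarith
  -- the four exceptional sets
  set A1 : Set UnitAddCircle := {x | κ * q < C * defect (P x) q} with hA1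
  set A2 : Set UnitAddCircle := {x | η / 2 * q < |∑ i ∈ Finset.range q,
    (hf P (x + ((i : ℕ) : ℤ) • ((θ : ℝ) : UnitAddCircle)) - ρ)|} with hA2
  set A3 : Set UnitAddCircle := {x | η' / 4 * q < ∑ m ∈ Finset.range q,
    tl P R (x + ((m : ℕ) : ℤ) • ((θ : ℝ) : UnitAddCircle))} with hA3
  set A4 : Set UnitAddCircle := {x | η₁ / 2 * l' * q < ∑ m ∈ Finset.range q,
    |∑ i ∈ Finset.range l', (hf P (x + ((m : ℕ) : ℤ) • ((θ : ℝ) : UnitAddCircle) +
      ((i : ℕ) : ℤ) • ((θ : ℝ) : UnitAddCircle)) - ρ)|} with hA4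
  have hsub : {x : UnitAddCircle | ¬ Good θ F ρ η₁ l' η' R c nstar η q x} ⊆
      (A1 ∪ A2) ∪ (A3 ∪ A4) := by
    intro x hx
    by_contra hcon
    simp only [Set.mem_union, not_or] at hcon
    obtain ⟨⟨h1, h2⟩, h3, h4⟩ := hcon
    apply hx
    exact good_of hF0 hF1 hP ρ η₁ l' η' R c nstar η q x κ hκ1 hκ2 hκ3
      (not_lt.1 h1) (not_lt.1 h2) (not_lt.1 h3) (not_lt.1 h4) hnst
  -- measurability facts
  have hrot : ∀ k : ℤ, Measurable fun x : UnitAddCircle => x + k • ((θ : ℝ) : UnitAddCircle) :=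
    fun k => measurable_id.add_const _
  have hm1 : volume A1 ≤ ENNReal.ofReal (ε / 4) := by
    apply markov (f := fun x => C * defect (P x) q)
    · apply integrable_of_bdd ((meas_defect hP q).const_mul C) (C := C * q)
      intro x
      rw [abs_of_nonneg (mul_nonneg hC0.le (defect_nonneg hP x q))]
      exact mul_le_mul_of_nonneg_left (defect_le_q hP x q) hC0.le
    · intro x; exact mul_nonneg hC0.le (defect_nonneg hP x q)
    · positivity
    · rw [integral_const_mul]
      have := mul_le_mul_of_nonneg_left (hq1 q hqq1) hC0.le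
      refine this.trans (le_of_eq ?_)
      field_simp
  have hsumabs : ∀ (n : ℕ) (a : UnitAddCircle) (x : UnitAddCircle),
      |∑ i ∈ Finset.range n, (hf P (x + a + ((i : ℕ) : ℤ) • ((θ : ℝ) : UnitAddCircle)) - ρ)| ≤
        n * (1 + |ρ|) := by
    intro n a x
    refine (Finset.abs_sum_le_sum_abs _ _).trans ?_
    calc _ ≤ ∑ i ∈ Finset.range n, (1 + |ρ|) := by
          apply Finset.sum_le_sum
          intro i _
          refine (abs_sub _ _).trans ?_
          have := hf_abs hP (x + a + ((i : ℕ) : ℤ) • ((θ : ℝ) : UnitAddCircle))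
          linarith
      _ = _ := by rw [Finset.sum_const, Finset.card_range, nsmul_eq_mul]
  have hmsum : ∀ (n : ℕ) (a : UnitAddCircle), Measurable fun x : UnitAddCircle =>
      |∑ i ∈ Finset.range n, (hf P (x + a + ((i : ℕ) : ℤ) • ((θ : ℝ) : UnitAddCircle)) - ρ)| := by
    intro n a
    apply Measurable.abs
    apply Finset.measurable_fun_sum
    intro i _
    apply Measurable.sub_const
    exact (hf_meas hP).comp ((measurable_id.add_const a).add_const _)
  have hintsum : ∀ (n : ℕ) (a : UnitAddCircle), Integrable fun x : UnitAddCircle =>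
      |∑ i ∈ Finset.range n, (hf P (x + a + ((i : ℕ) : ℤ) • ((θ : ℝ) : UnitAddCircle)) - ρ)| := by
    intro n a
    apply integrable_of_bdd (hmsum n a) (C := n * (1 + |ρ|))
    intro x
    rw [abs_abs]; exact hsumabs n a x
  have hm2 : volume A2 ≤ ENNReal.ofReal (ε / 4) := by
    have h0 := hintsum q 0
    simp only [add_zero] at h0
    apply markov (f := fun x => |∑ i ∈ Finset.range q,
      (hf P (x + ((i : ℕ) : ℤ) • ((θ : ℝ) : UnitAddCircle)) - ρ)|) h0
    · intro x; exact abs_nonneg _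
    · positivity
    · have := hq2 q hqq2 0
      simp only [add_zero] at this
      refine this.trans (le_of_eq ?_)
      ring
  have hm3 : volume A3 ≤ ENNReal.ofReal (ε / 4) := by
    have hint : ∀ m : ℕ, Integrable fun x : UnitAddCircle =>
        tl P R (x + ((m : ℕ) : ℤ) • ((θ : ℝ) : UnitAddCircle)) := by
      intro m
      apply integrable_of_bdd (C := 1)
      · exact (meas_tl hP _).comp (hrot _)
      · intro x; rw [abs_of_nonneg (tl_nonneg _ _)]; exact tl_le_one hP _ _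
    apply markov (f := fun x => ∑ m ∈ Finset.range q,
      tl P R (x + ((m : ℕ) : ℤ) • ((θ : ℝ) : UnitAddCircle)))
    · exact integrable_finsetSum _ fun m _ => hint m
    · intro x; exact Finset.sum_nonneg fun m _ => tl_nonneg _ _
    · positivity
    · rw [integral_finsetSum _ fun m _ => hint m]
      calc ∑ m ∈ Finset.range q, ∫ x, tl P R (x + ((m : ℕ) : ℤ) • ((θ : ℝ) : UnitAddCircle))
          = ∑ m ∈ Finset.range q, ∫ x, tl P R x := by
            apply Finset.sum_congr rfl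
            intro m _
            exact integral_shift (tl P R) _
        _ = q * ∫ x, tl P R x := by rw [Finset.sum_const, Finset.card_range, nsmul_eq_mul]
        _ ≤ q * (η' / 4 * (ε / 4)) := mul_le_mul_of_nonneg_left hR.le hq0.le
        _ = η' / 4 * q * (ε / 4) := by ring
  have hm4 : volume A4 ≤ ENNReal.ofReal (ε / 4) := by
    apply markov (f := fun x => ∑ m ∈ Finset.range q,
      |∑ i ∈ Finset.range l', (hf P (x + ((m : ℕ) : ℤ) • ((θ : ℝ) : UnitAddCircle) +
        ((i : ℕ) : ℤ) • ((θ : ℝ) : UnitAddCircle)) - ρ)|)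
    · exact integrable_finsetSum _ fun m _ => hintsum l' _
    · intro x; exact Finset.sum_nonneg fun m _ => abs_nonneg _
    · positivity
    · rw [integral_finsetSum _ fun m _ => hintsum l' _]
      calc ∑ m ∈ Finset.range q, ∫ x, |∑ i ∈ Finset.range l',
            (hf P (x + ((m : ℕ) : ℤ) • ((θ : ℝ) : UnitAddCircle) +
              ((i : ℕ) : ℤ) • ((θ : ℝ) : UnitAddCircle)) - ρ)|
          ≤ ∑ m ∈ Finset.range q, (η₁ / 2 * (ε / 4) * l') :=
            Finset.sum_le_sum fun m _ => hl0' _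
        _ = q * (η₁ / 2 * (ε / 4) * l') := by
            rw [Finset.sum_const, Finset.card_range, nsmul_eq_mul]
        _ = η₁ / 2 * l' * q * (ε / 4) := by ring
        _ ≤ _ := le_refl _
  calc volume {x : UnitAddCircle | ¬ Good θ F ρ η₁ l' η' R c nstar η q x}
      ≤ volume ((A1 ∪ A2) ∪ (A3 ∪ A4)) := measure_mono hsub
    _ ≤ (volume A1 + volume A2) + (volume A3 + volume A4) :=
        (measure_union_le _ _).trans (add_le_add (measure_union_le _ _) (measure_union_le _ _))
    _ ≤ (ENNReal.ofReal (ε / 4) + ENNReal.ofReal (ε / 4)) +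
        (ENNReal.ofReal (ε / 4) + ENNReal.ofReal (ε / 4)) :=
        add_le_add (add_le_add hm1 hm2) (add_le_add hm3 hm4)
    _ = ENNReal.ofReal ε := by
        rw [← ENNReal.ofReal_add hε4.le hε4.le, ← ENNReal.ofReal_add (by linarith) (by linarith)]
        congr 1; ring

end Crest.Agent.R113.Transfer
end

-- ▼ part R113/TransferCounts
section

/-! Row 113, S0149, task T13: Markov lemma for finitely many counts along the orbit, and the
combined existence statement. -/

set_option autoImplicit false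

open MeasureTheory Filter Topology
open scoped InnerProductSpace ComplexConjugate

namespace Crest.Agent.R113.Transfer

open Classical in
theorem counts : S_Counts := by
  intro θ ι s B hB mu ζ hζ hmu0 hmu N q hq
  have hq0 : (0 : ℝ) < q := by
    have : 0 < q := by omega
    exact_mod_cast this
  have hone : ∀ i ∈ s, volume {x : UnitAddCircle | ζ i * q <
      (((Finset.Icc (-(N : ℤ)) (q + N)).filter
        (fun m => x + m • ((θ : ℝ) : UnitAddCircle) ∈ B i)).card : ℝ)} ≤
        ENNReal.ofReal (2 * mu i / ζ i) := by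
    intro i hi
    set f : UnitAddCircle → ℝ := fun x => ∑ m ∈ Finset.Icc (-(N : ℤ)) (q + N),
      (B i).indicator (fun _ => (1 : ℝ)) (x + m • ((θ : ℝ) : UnitAddCircle)) with hf
    have hcard : ∀ x, (((Finset.Icc (-(N : ℤ)) (q + N)).filter
        (fun m => x + m • ((θ : ℝ) : UnitAddCircle) ∈ B i)).card : ℝ) = f x := by
      intro x
      rw [Finset.card_filter, hf]
      push_cast
      apply Finset.sum_congr rfl
      intro m _
      rw [Set.indicator_apply]
    have hset : {x : UnitAddCircle | ζ i * q < (((Finset.Icc (-(N : ℤ)) (q + N)).filter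
        (fun m => x + m • ((θ : ℝ) : UnitAddCircle) ∈ B i)).card : ℝ)} = {x | ζ i * q < f x} := by
      apply congrArg
      funext x
      rw [hcard]
    rw [hset]
    have hind : Measurable ((B i).indicator (fun _ => (1 : ℝ))) :=
      measurable_const.indicator (hB i hi)
    have hint : ∀ m : ℤ, Integrable fun x : UnitAddCircle =>
        (B i).indicator (fun _ => (1 : ℝ)) (x + m • ((θ : ℝ) : UnitAddCircle)) := by
      intro m
      apply integrable_of_bdd (C := 1) (hind.comp (measurable_id.add_const _))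
      intro x
      have h1 : (0 : ℝ) ≤ (B i).indicator (fun _ => (1 : ℝ)) (x + m • ((θ : ℝ) : UnitAddCircle)) :=
        Set.indicator_nonneg (fun _ _ => zero_le_one) _
      have h2 : (B i).indicator (fun _ => (1 : ℝ)) (x + m • ((θ : ℝ) : UnitAddCircle)) ≤ 1 := by
        rw [Set.indicator_apply]; split_ifs <;> norm_num
      exact (abs_of_nonneg h1).trans_le h2
    apply markov (f := f)
    · exact integrable_finsetSum _ fun m _ => hint m
    · intro x
      apply Finset.sum_nonneg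
      intro m _
      exact Set.indicator_nonneg (fun _ _ => zero_le_one) _
    · exact mul_pos (hζ i hi) hq0
    · rw [hf, integral_finsetSum _ fun m _ => hint m]
      have h1 : ∀ m : ℤ, ∫ x : UnitAddCircle,
          (B i).indicator (fun _ => (1 : ℝ)) (x + m • ((θ : ℝ) : UnitAddCircle)) ≤ mu i := by
        intro m
        rw [integral_shift ((B i).indicator (fun _ => (1 : ℝ))),
          integral_indicator (hB i hi), setIntegral_const, smul_eq_mul, mul_one]
        exact ENNReal.toReal_le_of_le_ofReal (hmu0 i hi) (hmu i hi)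
      calc ∑ m ∈ Finset.Icc (-(N : ℤ)) (q + N), ∫ x : UnitAddCircle,
            (B i).indicator (fun _ => (1 : ℝ)) (x + m • ((θ : ℝ) : UnitAddCircle))
          ≤ ∑ m ∈ Finset.Icc (-(N : ℤ)) (q + N), mu i := Finset.sum_le_sum fun m _ => h1 m
        _ = ((q + 2 * N + 1 : ℕ) : ℝ) * mu i := by
            rw [Finset.sum_const, Int.card_Icc, nsmul_eq_mul]
            congr 2
            omega
        _ ≤ (2 * q) * mu i := by
            apply mul_le_mul_of_nonneg_right _ (hmu0 i hi)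
            have : q + 2 * N + 1 ≤ 2 * q := by omega
            exact_mod_cast this
        _ = ζ i * q * (2 * mu i / ζ i) := by
            have := (hζ i hi).ne'
            field_simp
  have hsub : {x : UnitAddCircle | ∃ i ∈ s, ζ i * q <
      (((Finset.Icc (-(N : ℤ)) (q + N)).filter
        (fun m => x + m • ((θ : ℝ) : UnitAddCircle) ∈ B i)).card : ℝ)} ⊆
      ⋃ i ∈ s, {x : UnitAddCircle | ζ i * q < (((Finset.Icc (-(N : ℤ)) (q + N)).filter
        (fun m => x + m • ((θ : ℝ) : UnitAddCircle) ∈ B i)).card : ℝ)} := by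
    intro x hx
    obtain ⟨i, hi, hx⟩ := hx
    exact Set.mem_biUnion hi hx
  refine (measure_mono hsub).trans ((measure_biUnion_finset_le s _).trans ?_)
  rw [ENNReal.ofReal_sum_of_nonneg]
  · exact Finset.sum_le_sum hone
  · intro i hi
    exact div_nonneg (mul_nonneg zero_le_two (hmu0 i hi)) (hζ i hi).le

end Crest.Agent.R113.Transfer
end

-- ▼ part R113/Circ/Gap
section

/-! Row 113, T16: hitting gaps of the irrational rotation, and the level (time since last visit). -/

set_option autoImplicit false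

namespace Crest.Agent.R113.Circ

open MeasureTheory Metric

/-- every orbit segment of length `G` meets the ball of radius `r` around `0`. -/
theorem exists_gap {θ : ℝ} (hθ : Irrational θ) {r : ℝ} (hr : 0 < r) :
    ∃ G : ℕ, 1 ≤ G ∧ ∀ x : UnitAddCircle, ∃ j < G, x + j • (θ : UnitAddCircle) ∈ ball (0 : UnitAddCircle) r := by
  have hd : DenseRange (fun n : ℤ => n • (θ : UnitAddCircle)) := by
    have := (AddCircle.denseRange_zsmul_coe_iff (a := θ) (p := 1)).2 (by simpa using hθ)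
    exact this
  have hcov : (Set.univ : Set UnitAddCircle) ⊆
      ⋃ n : ℤ, (fun x : UnitAddCircle => x + n • (θ : UnitAddCircle)) ⁻¹' ball 0 r := by
    intro x _
    obtain ⟨n, hn⟩ := hd.exists_mem_open (isOpen_ball (x := -x) (ε := r)) ⟨-x, mem_ball_self hr⟩
    refine Set.mem_iUnion.2 ⟨n, ?_⟩
    simp only [Set.mem_preimage, mem_ball, dist_eq_norm] at hn ⊢
    have : x + n • (θ : UnitAddCircle) - 0 = n • (θ : UnitAddCircle) - -x := by abel
    rw [this]; exact hn
  obtain ⟨F, hF⟩ := isCompact_univ.elim_finite_subcover _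
    (fun n : ℤ => isOpen_ball.preimage (by fun_prop)) hcov
  -- a bound for the elements of F
  obtain ⟨N, hN⟩ : ∃ N : ℕ, ∀ n ∈ F, n.natAbs ≤ N :=
    ⟨F.sup Int.natAbs, fun n hn => Finset.le_sup (f := Int.natAbs) hn⟩
  refine ⟨2 * N + 1, by omega, fun x => ?_⟩
  have := hF (Set.mem_univ (x + N • (θ : UnitAddCircle)))
  simp only [Set.mem_iUnion, Set.mem_preimage] at this
  obtain ⟨n, hnF, hn⟩ := this
  have hb := hN n hnF
  have hnonneg : 0 ≤ (N : ℤ) + n := by omega
  obtain ⟨j, hj⟩ := Int.eq_ofNat_of_zero_le hnonneg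
  refine ⟨j, by omega, ?_⟩
  have : x + j • (θ : UnitAddCircle) = x + N • (θ : UnitAddCircle) + n • (θ : UnitAddCircle) := by
    rw [← natCast_zsmul (θ : UnitAddCircle) j, ← hj, add_zsmul, natCast_zsmul, add_assoc]
  rw [this]; exact hn

/-- backward version. -/
theorem exists_gap_back {θ : ℝ} (hθ : Irrational θ) {r : ℝ} (hr : 0 < r) :
    ∃ G : ℕ, 1 ≤ G ∧ ∀ x : UnitAddCircle, ∃ j < G, x - j • (θ : UnitAddCircle) ∈ ball (0 : UnitAddCircle) r := by
  obtain ⟨G, hG1, hG⟩ := exists_gap hθ hr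
  refine ⟨G, hG1, fun x => ?_⟩
  obtain ⟨j, hj, hx⟩ := hG (-x)
  refine ⟨j, hj, ?_⟩
  simp only [mem_ball, dist_eq_norm, sub_zero] at hx ⊢
  rw [← norm_neg]
  have : -(x - j • (θ : UnitAddCircle)) = -x + j • (θ : UnitAddCircle) := by abel
  rw [this]; exact hx

/-! ### the level function -/

section Lev

variable (α : UnitAddCircle) (J : Set UnitAddCircle)

/-- time since the last visit to `J` along the orbit `x, x - α, ...` -/
noncomputable def lev (x : UnitAddCircle) : ℕ := sInf {j : ℕ | x - j • α ∈ J}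

variable {α J}

theorem lev_spec {x : UnitAddCircle} (h : ∃ j : ℕ, x - j • α ∈ J) : x - lev α J x • α ∈ J :=
  Nat.sInf_mem h

theorem not_mem_of_lt_lev {x : UnitAddCircle} {j : ℕ} (h : j < lev α J x) : x - j • α ∉ J :=
  Nat.notMem_of_lt_sInf h

theorem lev_le {x : UnitAddCircle} {j : ℕ} (h : x - j • α ∈ J) : lev α J x ≤ j :=
  Nat.sInf_le h

theorem lev_eq {x : UnitAddCircle} {j : ℕ} (h : x - j • α ∈ J) (h' : ∀ i < j, x - i • α ∉ J) :
    lev α J x = j := by
  refine le_antisymm (lev_le h) ?_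
  by_contra hlt
  push Not at hlt
  exact h' _ hlt (lev_spec ⟨j, h⟩)

theorem lev_eq_zero_iff {x : UnitAddCircle} (h : ∃ j : ℕ, x - j • α ∈ J) :
    lev α J x = 0 ↔ x ∈ J := by
  constructor
  · intro h0
    have := lev_spec h
    rw [h0] at this
    simpa using this
  · intro hx
    exact lev_eq (by simpa using hx) (by simp)

theorem lev_add_of_not_mem {x : UnitAddCircle} (h : ∃ j : ℕ, x - j • α ∈ J) (hx : x + α ∉ J) :
    lev α J (x + α) = lev α J x + 1 := by
  refine lev_eq ?_ ?_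
  · have := lev_spec h
    have e : x + α - (lev α J x + 1) • α = x - lev α J x • α := by
      rw [add_smul, one_smul]; abel
    rw [e]; exact this
  · intro i hi
    rcases Nat.eq_zero_or_pos i with rfl | hpos
    · simpa using hx
    · obtain ⟨i', rfl⟩ : ∃ i', i = i' + 1 := ⟨i - 1, by omega⟩
      have e : x + α - (i' + 1) • α = x - i' • α := by
        rw [add_smul, one_smul]; abel
      rw [e]; exact not_mem_of_lt_lev (by omega)

theorem lev_add {x : UnitAddCircle} (h : ∃ j : ℕ, x - j • α ∈ J) :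
    lev α J (x + α) = lev α J x + 1 ∨ lev α J (x + α) = 0 := by
  by_cases hx : x + α ∈ J
  · right
    exact lev_eq (by simpa using hx) (by simp)
  · exact Or.inl (lev_add_of_not_mem h hx)

theorem lev_add_nat (hJ : ∀ x : UnitAddCircle, ∃ j : ℕ, x - j • α ∈ J) {x : UnitAddCircle} :
    ∀ n : ℕ, (∀ i : ℕ, 1 ≤ i → i ≤ n → x + i • α ∉ J) → lev α J (x + n • α) = lev α J x + n := by
  intro n
  induction n with
  | zero => intro _; simp
  | succ n ih =>
    intro h
    have h1 := ih (fun i hi hin => h i hi (by omega))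
    have h2 : x + n • α + α ∉ J := by
      have := h (n + 1) (by omega) le_rfl
      rwa [add_smul, one_smul, ← add_assoc] at this
    have h3 := lev_add_of_not_mem (hJ _) h2
    have e : x + (n + 1) • α = x + n • α + α := by rw [add_smul, one_smul, add_assoc]
    rw [e, h3, h1]; omega

theorem measurable_lev (hJ : ∀ x : UnitAddCircle, ∃ j : ℕ, x - j • α ∈ J) (hm : MeasurableSet J) :
    Measurable (lev α J) := by
  refine measurable_to_nat fun x => ?_
  have : lev α J ⁻¹' {lev α J x} =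
      {y | y - (lev α J x) • α ∈ J} ∩ ⋂ i ∈ Finset.range (lev α J x), {y | y - i • α ∉ J} := by
    ext y
    simp only [Set.mem_preimage, Set.mem_singleton_iff, Set.mem_inter_iff, Set.mem_ofPred_eq,
      Set.mem_iInter, Finset.mem_range]
    constructor
    · intro h
      rw [← h]
      exact ⟨lev_spec (hJ y), fun i hi => not_mem_of_lt_lev hi⟩
    · rintro ⟨h1, h2⟩
      exact lev_eq h1 h2
  rw [this]
  refine MeasurableSet.inter ?_ (Finset.measurableSet_biInter _ fun i _ => ?_)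
  · exact (measurable_id.sub_const _) hm
  · exact ((measurable_id.sub_const _) hm).compl

end Lev

/-- translates: `∃ s ∈ F, x + s α ∈ A` has measure at most `|F| · vol A`. -/
theorem volume_exists_translate_le (α : UnitAddCircle) (F : Finset ℤ) (A : Set UnitAddCircle) :
    volume {x : UnitAddCircle | ∃ s ∈ F, x + s • α ∈ A} ≤ F.card * volume A := by
  have : {x : UnitAddCircle | ∃ s ∈ F, x + s • α ∈ A} =
      ⋃ s ∈ F, (fun x : UnitAddCircle => x + s • α) ⁻¹' A := by
    ext x; simp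
  rw [this]
  refine (measure_biUnion_finset_le _ _).trans ?_
  have : ∀ s ∈ F, volume ((fun x : UnitAddCircle => x + s • α) ⁻¹' A) ≤ volume A := by
    intro s _
    rw [measure_preimage_add_right]
  refine (Finset.sum_le_sum this).trans ?_
  simp

theorem volume_ball_le (r : ℝ) : volume (ball (0 : UnitAddCircle) r) ≤ ENNReal.ofReal (2 * r) := by
  refine (measure_mono ball_subset_closedBall).trans ?_
  rw [AddCircle.volume_closedBall]
  exact ENNReal.ofReal_le_ofReal (min_le_right _ _)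

theorem volume_annulus_le {r s : ℝ} (hr : 0 ≤ r) (hrs : r ≤ s) (hs : s ≤ 1 / 2) :
    volume (ball (0 : UnitAddCircle) s \ closedBall 0 r) ≤ ENNReal.ofReal (2 * (s - r)) := by
  have h1 : volume (closedBall (0 : UnitAddCircle) s \ closedBall 0 r) =
      volume (closedBall (0 : UnitAddCircle) s) - volume (closedBall (0 : UnitAddCircle) r) := by
    refine measure_sdiff (closedBall_subset_closedBall hrs) isClosed_closedBall.nullMeasurableSet
      (measure_ne_top _ _)
  refine (measure_mono (Set.sdiff_subset_sdiff_left ball_subset_closedBall)).trans ?_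
  rw [h1, AddCircle.volume_closedBall, AddCircle.volume_closedBall, min_eq_right (by linarith),
    min_eq_right (by linarith), ← ENNReal.ofReal_sub _ (by linarith)]
  exact ENNReal.ofReal_le_ofReal (by linarith)

end Crest.Agent.R113.Circ
end

-- ▼ part R113/Circ/Block
section

/-! Row 113, T16: the cost function of one block. -/

set_option autoImplicit false

namespace Crest.Agent.R113.Circ

open MeasureTheory Metric Finset

/-- Data of one block: cell length `M`, gap `g`, times `t k`, arcs `I' ⊆ I ⊆ J`, bumps. -/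
structure BlockData (α : UnitAddCircle) (M g : ℕ) where
  t : ℕ → ℕ
  t_ge : ∀ k, k * M ≤ t k
  t_lt : ∀ k, t k < k * M + g
  r1 : ℝ
  r2 : ℝ
  r3 : ℝ
  r12 : r1 < r2
  r23 : r2 < r3
  bump : UnitAddCircle → ℝ
  chi : UnitAddCircle → ℝ
  bump_cont : Continuous bump
  chi_cont : Continuous chi
  bump_nonneg : ∀ x, 0 ≤ bump x
  bump_le : ∀ x, bump x ≤ 1
  chi_nonneg : ∀ x, 0 ≤ chi x
  chi_le : ∀ x, chi x ≤ 1
  bump_one : ∀ x ∈ closedBall (0 : UnitAddCircle) r1, bump x = 1
  bump_zero : ∀ x ∉ ball (0 : UnitAddCircle) r2, bump x = 0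
  chi_one : ∀ x ∈ ball (0 : UnitAddCircle) r2, chi x = 1
  chi_zero : ∀ x ∉ ball (0 : UnitAddCircle) r3, chi x = 0

/-- existence of a continuous function which is one on a closed ball, zero off a larger ball -/
theorem exists_bump {r s : ℝ} (h : r < s) : ∃ f : UnitAddCircle → ℝ, Continuous f ∧
    (∀ x, 0 ≤ f x) ∧ (∀ x, f x ≤ 1) ∧ (∀ x ∈ closedBall (0 : UnitAddCircle) r, f x = 1) ∧
    (∀ x ∉ ball (0 : UnitAddCircle) s, f x = 0) := by
  refine ⟨fun x => max 0 (min 1 ((s - ‖x‖) / (s - r))), ?_, ?_, ?_, ?_, ?_⟩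
  · fun_prop
  · intro x; exact le_max_left _ _
  · intro x; exact max_le zero_le_one (min_le_left _ _)
  · intro x hx
    have hx' : ‖x‖ ≤ r := by simpa using hx
    have : 1 ≤ (s - ‖x‖) / (s - r) := by
      rw [le_div_iff₀ (by linarith)]; linarith
    simp only [min_eq_left this]
    norm_num
  · intro x hx
    have hx' : s ≤ ‖x‖ := by simpa using hx
    have : (s - ‖x‖) / (s - r) ≤ 0 := div_nonpos_of_nonpos_of_nonneg (by linarith) (by linarith)
    exact max_eq_left ((min_le_right _ _).trans this)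

theorem exists_blockData (α : UnitAddCircle) (M g : ℕ) (t : ℕ → ℕ) (t_ge : ∀ k, k * M ≤ t k)
    (t_lt : ∀ k, t k < k * M + g) (r1 r2 r3 : ℝ) (r12 : r1 < r2) (r23 : r2 < r3) :
    ∃ D : BlockData α M g, D.t = t ∧ D.r1 = r1 ∧ D.r2 = r2 ∧ D.r3 = r3 := by
  obtain ⟨f, f1, f2, f3, f4, f5⟩ := exists_bump r12
  obtain ⟨h, h1, h2, h3, h4, h5⟩ := exists_bump r23
  exact ⟨⟨t, t_ge, t_lt, r1, r2, r3, r12, r23, f, h, f1, h1, f2, f3, h2, h3, f4, f5,
    fun x hx => h4 x (ball_subset_closedBall hx), h5⟩, rfl, rfl, rfl, rfl⟩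

namespace BlockData

variable {α : UnitAddCircle} {M g : ℕ} (D : BlockData α M g)

/-- the `k`-th cost profile -/
noncomputable def piece (k : ℕ) (x : UnitAddCircle) : ℝ :=
  D.bump (x - D.t k • α) *
    ∏ i ∈ Icc 1 (D.t k + M), (1 - D.chi (x - D.t k • α + i • α))

theorem piece_cont (k : ℕ) : Continuous (D.piece k) := by
  unfold piece
  have h1 := D.bump_cont
  have h2 := D.chi_cont
  fun_prop

theorem piece_nonneg (k : ℕ) (x : UnitAddCircle) : 0 ≤ D.piece k x :=
  mul_nonneg (D.bump_nonneg _) (Finset.prod_nonneg fun i _ => by linarith [D.chi_le (x - D.t k • α + i • α)])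

theorem piece_le (k : ℕ) (x : UnitAddCircle) : D.piece k x ≤ 1 := by
  unfold piece
  refine mul_le_one₀ (D.bump_le _)
    (Finset.prod_nonneg fun i _ => by linarith [D.chi_le (x - D.t k • α + i • α)])
    (Finset.prod_le_one (fun i _ => by linarith [D.chi_le (x - D.t k • α + i • α)])
      (fun i _ => by linarith [D.chi_nonneg (x - D.t k • α + i • α)]))

/-- a nonzero piece comes from a point of `I` which does not return for a long time -/
theorem piece_ne_zero {k : ℕ} {x : UnitAddCircle} (h : D.piece k x ≠ 0) :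
    x - D.t k • α ∈ ball (0 : UnitAddCircle) D.r2 ∧
    ∀ i, 1 ≤ i → i ≤ D.t k + M → x - D.t k • α + i • α ∉ ball (0 : UnitAddCircle) D.r2 := by
  unfold piece at h
  constructor
  · by_contra hx
    exact h (by rw [D.bump_zero _ hx, zero_mul])
  · intro i h1 h2 hx
    apply h
    rw [Finset.prod_eq_zero (i := i) (by simp [h1, h2]), mul_zero]
    rw [D.chi_one _ hx]; ring

theorem t_strictMono (hg : g ≤ M) : StrictMono D.t := by
  refine strictMono_nat_of_lt_succ fun k => ?_
  have h1 := D.t_lt k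
  have h2 := D.t_ge (k + 1)
  have : (k + 1) * M = k * M + M := by ring
  omega

/-- support set of the block -/
def W : Set UnitAddCircle := {x | ∃ k, D.piece k x ≠ 0}

theorem isOpen_W : IsOpen D.W := by
  have : D.W = ⋃ k, {x | D.piece k x ≠ 0} := by ext x; simp [W]
  rw [this]
  exact isOpen_iUnion fun k => isOpen_ne_fun (D.piece_cont k) continuous_const

/-- two visits of the support within one column (general form). -/
theorem no_double {k k' : ℕ} {x : UnitAddCircle} {i : ℕ} (hk : D.piece k x ≠ 0)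
    (hk' : D.piece k' (x + i • α) ≠ 0) (hi : i ≤ M) : D.t k' = D.t k + i := by
  obtain ⟨h1, h2⟩ := D.piece_ne_zero hk
  obtain ⟨h1', h2'⟩ := D.piece_ne_zero hk'
  rcases lt_trichotomy (D.t k') (D.t k + i) with hlt | heq | hgt
  · exfalso
    obtain ⟨s, hs⟩ : ∃ s, D.t k + i = D.t k' + s := ⟨D.t k + i - D.t k', by omega⟩
    apply h2 s (by omega) (by omega)
    have : x - D.t k • α + s • α = x + i • α - D.t k' • α := by
      have h3 : (D.t k + i) • α = (D.t k' + s) • α := by rw [hs]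
      rw [add_smul, add_smul] at h3
      rw [sub_add_eq_add_sub, sub_eq_sub_iff_add_eq_add]
      rw [add_assoc, add_comm (s • α), ← h3]; abel
    rw [this]; exact h1'
  · exact heq
  · exfalso
    obtain ⟨s, hs⟩ : ∃ s, D.t k' = D.t k + i + s := ⟨D.t k' - (D.t k + i), by omega⟩
    apply h2' s (by omega) (by omega)
    have : x + i • α - D.t k' • α + s • α = x - D.t k • α := by
      rw [hs, add_smul, add_smul]; abel
    rw [this]; exact h1

theorem unique_k (hg : g ≤ M) {k k' : ℕ} {x : UnitAddCircle} (hk : D.piece k x ≠ 0)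
    (hk' : D.piece k' x ≠ 0) : k = k' := by
  have := D.no_double (i := 0) hk (by simpa using hk') (by omega)
  exact (D.t_strictMono hg).injective (by omega)

theorem volume_W_le (hM : 2 * g ≤ M) (h2 : 2 ≤ M) : volume D.W ≤ ENNReal.ofReal (3 / M) := by
  classical
  -- translates by i < M - g ... are pairwise disjoint
  set m := M - g with hm
  have hm1 : M ≤ 2 * m := by omega
  have hdisj : ∀ i < m, ∀ j < m, i < j →
      Disjoint ((fun x : UnitAddCircle => x + i • α) ⁻¹' D.W)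
        ((fun x : UnitAddCircle => x + j • α) ⁻¹' D.W) := by
    intro i hi j hj hij
    rw [Set.disjoint_left]
    rintro x ⟨k, hk⟩ ⟨k', hk'⟩
    have e : x + j • α = x + i • α + (j - i) • α := by
      have : j • α = i • α + (j - i) • α := by rw [← add_smul]; congr 1; omega
      rw [this, add_assoc]
    change D.piece k (x + i • α) ≠ 0 at hk
    change D.piece k' (x + j • α) ≠ 0 at hk'
    rw [e] at hk'
    have ht := D.no_double hk hk' (by omega)
    have hlt : D.t k < D.t k' := by omega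
    have hkk : k < k' := (D.t_strictMono (by omega)).lt_iff_lt.1 hlt
    have h1 := D.t_lt k
    have h2 := D.t_ge k'
    have h3 : (k + 1) * M ≤ k' * M := Nat.mul_le_mul_right _ hkk
    have h4 : (k + 1) * M = k * M + M := by ring
    omega
  have hWm : MeasurableSet D.W := D.isOpen_W.measurableSet
  have hsum : volume (⋃ i ∈ Finset.range m, (fun x : UnitAddCircle => x + i • α) ⁻¹' D.W) =
      ∑ i ∈ Finset.range m, volume ((fun x : UnitAddCircle => x + i • α) ⁻¹' D.W) := by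
    refine measure_biUnion_finset ?_ ?_
    · intro i hi j hj hij
      simp only [Finset.coe_range, Set.mem_Iio] at hi hj
      rcases lt_or_gt_of_ne hij with h | h
      · exact hdisj i hi j hj h
      · exact (hdisj j hj i hi h).symm
    · intro i _
      exact (measurable_id.add_const _) hWm
  have hle : ∑ i ∈ Finset.range m, volume ((fun x : UnitAddCircle => x + i • α) ⁻¹' D.W) ≤ 1 := by
    rw [← hsum]
    refine (measure_mono (Set.subset_univ _)).trans ?_
    rw [UnitAddCircle.measure_univ]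
  simp only [measure_preimage_add_right, Finset.sum_const, Finset.card_range, nsmul_eq_mul] at hle
  have hmpos : 0 < m := by omega
  have hW : volume D.W ≤ 1 / (m : ENNReal) := by
    rw [ENNReal.le_div_iff_mul_le (by left; exact_mod_cast hmpos.ne') (by left; simp)]
    rw [mul_comm]; exact hle
  refine hW.trans ?_
  have : (1 : ENNReal) / m = ENNReal.ofReal (1 / m) := by
    rw [ENNReal.ofReal_div_of_pos (by exact_mod_cast hmpos)]
    simp
  rw [this]
  refine ENNReal.ofReal_le_ofReal ?_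
  rw [div_le_div_iff₀ (by exact_mod_cast hmpos) (by positivity)]
  have : (M : ℝ) ≤ 2 * m := by exact_mod_cast hm1
  have h0 : (0 : ℝ) ≤ m := by positivity
  linarith

/-! ### the weighted sum -/

/-- cost of the block: weights `wt k`, `1 ≤ k ≤ K`. -/
noncomputable def cost (wt : ℕ → ℝ) (K : ℕ) (x : UnitAddCircle) : ℝ :=
  ∑ k ∈ Icc 1 K, wt k * D.piece k x

theorem cost_cont (wt : ℕ → ℝ) (K : ℕ) : Continuous (D.cost wt K) := by
  unfold cost
  have := D.piece_cont
  fun_prop

theorem cost_nonneg {wt : ℕ → ℝ} (hw : ∀ k, 0 ≤ wt k) (K : ℕ) (x : UnitAddCircle) :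
    0 ≤ D.cost wt K x :=
  Finset.sum_nonneg fun k _ => mul_nonneg (hw k) (D.piece_nonneg k x)

theorem cost_le (hg : g ≤ M) {wt : ℕ → ℝ} {B : ℝ} (hB : 0 ≤ B)
    (hw' : ∀ k, wt k ≤ B) (K : ℕ) (x : UnitAddCircle) : D.cost wt K x ≤ B := by
  classical
  unfold cost
  by_cases h : ∃ k, D.piece k x ≠ 0
  · obtain ⟨k, hk⟩ := h
    have hz : ∀ k' ∈ Icc 1 K, k' ≠ k → wt k' * D.piece k' x = 0 := by
      intro k' _ hne
      by_contra hne'
      exact hne (D.unique_k hg (right_ne_zero_of_mul hne') hk)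
    by_cases hkK : k ∈ Icc 1 K
    · rw [Finset.sum_eq_single_of_mem k hkK hz]
      calc wt k * D.piece k x ≤ B * 1 := mul_le_mul (hw' k) (D.piece_le k x) (D.piece_nonneg k x) hB
        _ = B := mul_one B
    · rw [Finset.sum_eq_zero]
      · exact hB
      · intro k' hk'
        exact hz k' hk' (fun h => hkK (h ▸ hk'))
  · push Not at h
    rw [Finset.sum_eq_zero (fun k _ => by rw [h k, mul_zero])]
    exact hB

theorem cost_eq_zero {wt : ℕ → ℝ} {K : ℕ} {x : UnitAddCircle} (hx : x ∉ D.W) :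
    D.cost wt K x = 0 := by
  unfold cost
  refine Finset.sum_eq_zero fun k _ => ?_
  have : D.piece k x = 0 := by
    by_contra h
    exact hx ⟨k, h⟩
  rw [this, mul_zero]

/-- value of the pieces along a column over a point of `I'` -/
theorem piece_column {y : UnitAddCircle} (hy : y ∈ closedBall (0 : UnitAddCircle) D.r1) {L : ℕ}
    (hL : ∀ i, 1 ≤ i → i ≤ L → y + i • α ∉ ball (0 : UnitAddCircle) D.r3) {m : ℕ} (hm : m + M ≤ L)
    (k : ℕ) : D.piece k (y + m • α) = if D.t k = m then 1 else 0 := by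
  unfold piece
  rcases lt_trichotomy (D.t k) m with hlt | heq | hgt
  · rw [if_neg (by omega), D.bump_zero, zero_mul]
    have e : y + m • α - D.t k • α = y + (m - D.t k) • α := by
      have : m • α = D.t k • α + (m - D.t k) • α := by rw [← add_smul]; congr 1; omega
      rw [this]; abel
    rw [e]
    intro hmem
    exact hL _ (by omega) (by omega) (ball_subset_ball D.r23.le hmem)
  · rw [if_pos heq, heq]
    have e : y + m • α - m • α = y := by abel
    rw [e, D.bump_one _ hy, one_mul]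
    refine Finset.prod_eq_one fun i hi => ?_
    simp only [Finset.mem_Icc] at hi
    rw [D.chi_zero _ (hL i hi.1 (by omega))]
    ring
  · rw [if_neg (by omega)]
    rw [Finset.prod_eq_zero (i := D.t k - m) (by simp; omega), mul_zero]
    have e : y + m • α - D.t k • α + (D.t k - m) • α = y := by
      have : D.t k • α = m • α + (D.t k - m) • α := by rw [← add_smul]; congr 1; omega
      rw [this]; abel
    rw [e, D.chi_one _ (closedBall_subset_ball D.r12 hy)]
    ring

/-- total cost of `n` steps starting at level `j` in a column over a point of `I'` -/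
theorem sum_cost_column {y : UnitAddCircle} (hy : y ∈ closedBall (0 : UnitAddCircle) D.r1)
    {j n : ℕ} (hL : ∀ i, 1 ≤ i → i ≤ j + n + M → y + i • α ∉ ball (0 : UnitAddCircle) D.r3)
    (hM : 0 < M) (hj : g ≤ j % M) (hn : g ≤ (j + n) % M) (wt : ℕ → ℝ) {K : ℕ}
    (hK : (j + n) / M ≤ K) :
    ∑ i ∈ Finset.range n, D.cost wt K (y + (j + i) • α) = ∑ k ∈ Ioc (j / M) ((j + n) / M), wt k := by
  classical
  unfold cost
  have h1 : ∀ i ∈ Finset.range n, ∀ k ∈ Icc 1 K, wt k * D.piece k (y + (j + i) • α) =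
      if D.t k = j + i then wt k else 0 := by
    intro i hi k _
    simp only [Finset.mem_range] at hi
    rw [D.piece_column hy hL (m := j + i) (by omega)]
    split_ifs <;> simp
  rw [Finset.sum_congr rfl fun i hi => Finset.sum_congr rfl (h1 i hi), Finset.sum_comm]
  have h2 : ∀ k ∈ Icc 1 K, (∑ i ∈ Finset.range n, if D.t k = j + i then wt k else 0) =
      if k ∈ Ioc (j / M) ((j + n) / M) then wt k else 0 := by
    intro k _
    have key : (∃ i < n, D.t k = j + i) ↔ k ∈ Ioc (j / M) ((j + n) / M) := by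
      have ht1 := D.t_ge k
      have ht2 := D.t_lt k
      have hj' := Nat.div_add_mod j M
      have hn' := Nat.div_add_mod (j + n) M
      have hjm := Nat.mod_lt j hM
      have hnm := Nat.mod_lt (j + n) hM
      rw [Finset.mem_Ioc]
      constructor
      · rintro ⟨i, hi, hti⟩
        constructor
        · by_contra hcon
          push Not at hcon
          have : k * M ≤ j / M * M := Nat.mul_le_mul_right _ hcon
          have e : M * (j / M) = j / M * M := mul_comm _ _
          omega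
        · rw [Nat.le_div_iff_mul_le hM]
          omega
      · rintro ⟨h3, h4⟩
        have h5 : (j / M + 1) * M ≤ k * M := Nat.mul_le_mul_right _ h3
        have h6 : k * M ≤ (j + n) / M * M := Nat.mul_le_mul_right _ h4
        have e1 : (j / M + 1) * M = M * (j / M) + M := by ring
        have e2 : (j + n) / M * M = M * ((j + n) / M) := mul_comm _ _
        refine ⟨D.t k - j, by omega, by omega⟩
    by_cases h : ∃ i < n, D.t k = j + i
    · rw [if_pos (key.1 h)]
      obtain ⟨i, hi, hti⟩ := h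
      rw [Finset.sum_eq_single_of_mem i (by simpa using hi)]
      · rw [if_pos hti]
      · intro b _ hb
        rw [if_neg (by omega)]
    · rw [if_neg (fun h' => h (key.2 h'))]
      refine Finset.sum_eq_zero fun i hi => ?_
      rw [if_neg]
      intro hcon
      exact h ⟨i, by simpa using hi, hcon⟩
  rw [Finset.sum_congr rfl h2, Finset.sum_ite_mem]
  congr 1
  ext k
  simp only [Finset.mem_inter, Finset.mem_Icc, Finset.mem_Ioc]
  constructor
  · rintro ⟨-, h⟩; exact h
  · rintro ⟨h3, h4⟩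
    exact ⟨⟨Nat.succ_le_of_lt (lt_of_le_of_lt (Nat.zero_le _) h3), h4.trans hK⟩, h3, h4⟩

end BlockData

/-- telescoping of the weights -/
theorem sum_wt (c : ℝ) (ε : ℕ → ℝ) {a a' : ℕ} (h : a ≤ a') :
    ∑ k ∈ Ioc a a', c * (2 + ε (k - 1) - ε k) = c * (2 * ((a' : ℝ) - a) + ε a - ε a') := by
  induction a', h using Nat.le_induction with
  | base => simp
  | succ n hn ih =>
    rw [Finset.sum_Ioc_succ_top (by omega), ih, Nat.add_sub_cancel]
    push_cast; ring

end Crest.Agent.R113.Circ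
end

-- ▼ part R113/Circ/Params
section

/-! Row 113, T16: choice of the parameters of the blocks. -/

set_option autoImplicit false

namespace Crest.Agent.R113.Circ

open MeasureTheory Metric Finset Filter

theorem exists_seq_slow (G K : ℕ → ℕ) (h0 : ∀ b, G 0 ≤ K b) (hK : Tendsto K atTop atTop) :
    ∃ m : ℕ → ℕ, Tendsto m atTop atTop ∧ ∀ b, G (m b) ≤ K b := by
  classical
  refine ⟨fun b => Nat.findGreatest (fun m => G m ≤ K b) b, ?_, fun b => ?_⟩
  · refine tendsto_atTop.2 fun N => ?_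
    filter_upwards [eventually_ge_atTop N, hK.eventually_ge_atTop (G N)] with b hb hKb
    exact Nat.le_findGreatest hb hKb
  · exact Nat.findGreatest_spec (P := fun m => G m ≤ K b) (Nat.zero_le b) (h0 b)

/-- slowly shrinking arcs with hitting gap `≤ M_b / 4^b` -/
theorem exists_arcs {θ : ℝ} (hθ : Irrational θ) :
    ∃ (v : ℕ → ℝ) (g : ℕ → ℕ), Tendsto v atTop (nhds 0) ∧ (∀ b, 4 ^ b * g b ≤ Mb b) ∧
      (∀ b, 1 ≤ g b) ∧
      ∀ b, ∀ x : UnitAddCircle, ∃ j < g b, x + j • (θ : UnitAddCircle) ∈ ball (0 : UnitAddCircle) (v b) := by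
  classical
  have hG : ∀ m : ℕ, ∃ G : ℕ, (m = 0 → G = 1) ∧ 1 ≤ G ∧ ∀ x : UnitAddCircle, ∃ j < G,
      x + j • (θ : UnitAddCircle) ∈ ball (0 : UnitAddCircle) (1 / ((m : ℝ) + 1)) := by
    intro m
    rcases Nat.eq_zero_or_pos m with rfl | hm
    · refine ⟨1, fun _ => rfl, le_rfl, fun x => ⟨0, one_pos, ?_⟩⟩
      simp only [zero_smul, add_zero, Nat.cast_zero, zero_add, div_one, mem_ball, dist_zero_right]
      have := AddCircle.norm_le_half_period (p := (1 : ℝ)) (x := x) one_ne_zero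
      rw [abs_one] at this
      linarith
    · obtain ⟨G, h1, h2⟩ := exists_gap hθ (r := 1 / ((m : ℝ) + 1)) (by positivity)
      exact ⟨G, fun h => by omega, h1, h2⟩
  choose G hG0 hG1 hG2 using hG
  have hMK : ∀ b : ℕ, Mb b / 4 ^ b = 2 ^ (20 * b ^ 2 - 2 * b) := by
    intro b
    have h1 : 2 * b ≤ 20 * b ^ 2 := by nlinarith [Nat.zero_le b]
    unfold Mb
    have : (4 : ℕ) ^ b = 2 ^ (2 * b) := by rw [pow_mul]; norm_num
    rw [this, Nat.pow_div h1 (by norm_num)]
  obtain ⟨m, hm1, hm2⟩ := exists_seq_slow G (fun b => Mb b / 4 ^ b)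
    (fun b => by rw [hG0 0 rfl, hMK]; exact Nat.one_le_two_pow)
    (by
      refine tendsto_atTop_mono (fun b => ?_) tendsto_id
      rw [hMK]
      have h1 : b ≤ 20 * b ^ 2 - 2 * b := by
        have : 3 * b ≤ 20 * b ^ 2 := by nlinarith [Nat.zero_le b]
        omega
      calc b ≤ 2 ^ b := Nat.lt_two_pow_self.le
        _ ≤ _ := Nat.pow_le_pow_right (by norm_num) h1)
  refine ⟨fun b => 1 / ((m b : ℝ) + 1), fun b => G (m b), ?_, fun b => ?_, fun b => hG1 _,
    fun b x => hG2 _ x⟩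
  · exact tendsto_one_div_add_atTop_nhds_zero_nat.comp hm1
  · have := hm2 b
    calc 4 ^ b * G (m b) ≤ 4 ^ b * (Mb b / 4 ^ b) := Nat.mul_le_mul_left _ this
      _ ≤ Mb b := Nat.mul_div_le _ _

/-- small positive parameter -/
theorem exists_small (C c' : ℝ) (hC : 0 ≤ C) (hc : 0 < c') : ∃ δ : ℝ, 0 < δ ∧ C * δ ≤ c' := by
  refine ⟨c' / (C + 1), by positivity, ?_⟩
  rw [mul_div_assoc', div_le_iff₀ (by positivity)]
  nlinarith

/-- one block with all its parameters -/
structure BlockPar (θ : ℝ) (b : ℕ) (v : ℝ) (g : ℕ) where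
  D : BlockData (θ : UnitAddCircle) (Mb b) g
  t_mem : ∀ k, D.t k • (θ : UnitAddCircle) ∈ ball (0 : UnitAddCircle) v
  H : ℕ
  δ : ℝ
  δ_pos : 0 < δ
  r1_pos : 0 < D.r1
  gap : ∀ x : UnitAddCircle, ∃ j < H, x - j • (θ : UnitAddCircle) ∈ ball (0 : UnitAddCircle) D.r1
  r3_le : D.r3 ≤ 1 / (4 ^ b * (1000 * ((Pib b : ℝ) * Mb b)))
  r3_half : D.r3 ≤ 1 / 2
  r2_le : D.r2 ≤ 1 / ((b : ℝ) + 1)
  collar : ((4 * (Mb b : ℝ) + 1) * (H + 1)) * (2 * (D.r3 - D.r1)) ≤ (1 / 4 : ℝ) ^ b / 8
  delta : (4 * (Mb b : ℝ) + 1 + rb b * Mb b) * (2 * δ) ≤ (1 / 4 : ℝ) ^ b / 8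

theorem exists_blockPar {θ : ℝ} (hθ : Irrational θ) (b : ℕ) (v : ℝ) (g : ℕ)
    (hg : ∀ x : UnitAddCircle, ∃ j < g, x + j • (θ : UnitAddCircle) ∈ ball (0 : UnitAddCircle) v) :
    Nonempty (BlockPar θ b v g) := by
  have hM : 1 ≤ (Mb b : ℝ) := by unfold Mb; exact_mod_cast Nat.one_le_two_pow
  have hP : 1 ≤ (Pib b : ℝ) := by unfold Pib; exact_mod_cast Nat.one_le_two_pow
  -- times
  have ht : ∀ k : ℕ, ∃ t : ℕ, k * Mb b ≤ t ∧ t < k * Mb b + g ∧
      t • (θ : UnitAddCircle) ∈ ball (0 : UnitAddCircle) v := by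
    intro k
    obtain ⟨j, hj, hjm⟩ := hg ((k * Mb b) • (θ : UnitAddCircle))
    exact ⟨k * Mb b + j, by omega, by omega, by rw [add_smul]; exact hjm⟩
  choose t t1 t2 t3 using ht
  -- radii
  set R0 : ℝ := 1 / (4 ^ b * (1000 * ((Pib b : ℝ) * Mb b))) with hR0
  have hPM : 1 ≤ (Pib b : ℝ) * Mb b := one_le_mul_of_one_le_of_one_le hP hM
  have h4b : (1 : ℝ) ≤ 4 ^ b := one_le_pow₀ (by norm_num)
  have hden : (4 : ℝ) ^ b * 1000 ≤ 4 ^ b * (1000 * ((Pib b : ℝ) * Mb b)) := by
    have : (1000 : ℝ) ≤ 1000 * ((Pib b : ℝ) * Mb b) := by linarith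
    exact mul_le_mul_of_nonneg_left this (by positivity)
  have hR0pos : 0 < R0 := by positivity
  have hR0le : R0 ≤ 1 / (4 ^ b * 1000) := one_div_le_one_div_of_le (by positivity) hden
  have hb1 : (b : ℝ) + 1 ≤ 4 ^ b := by
    have : b + 1 ≤ 4 ^ b := Nat.succ_le_of_lt (Nat.lt_pow_self (by norm_num))
    exact_mod_cast this
  obtain ⟨H, -, hH⟩ := exists_gap_back hθ (r := R0 / 2) (by positivity)
  obtain ⟨η0, hη0, hη0'⟩ := exists_small (((4 * (Mb b : ℝ) + 1) * (H + 1)) * 2) ((1 / 4 : ℝ) ^ b / 8)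
    (by positivity) (by positivity)
  obtain ⟨δ, hδ, hδ'⟩ := exists_small ((4 * (Mb b : ℝ) + 1 + rb b * Mb b) * 2) ((1 / 4 : ℝ) ^ b / 8)
    (by positivity) (by positivity)
  set η := min η0 (R0 / 2) with hη
  have hηpos : 0 < η := lt_min hη0 (by positivity)
  have hη1 : η ≤ η0 := min_le_left _ _
  have hη2 : η ≤ R0 / 2 := min_le_right _ _
  obtain ⟨D, hDt, hD1, hD2, hD3⟩ := exists_blockData (θ : UnitAddCircle) (Mb b) g t t1 t2
    (R0 / 2) (R0 / 2 + η / 2) (R0 / 2 + η) (by linarith) (by linarith)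
  refine ⟨⟨D, fun k => by rw [hDt]; exact t3 k, H, δ, hδ, by rw [hD1]; positivity,
    by rw [hD1]; exact hH, by rw [hD3]; linarith, ?_, ?_, ?_, by linarith⟩⟩
  · rw [hD3]
    have : 1 / ((4 : ℝ) ^ b * 1000) ≤ 1 / 2 := one_div_le_one_div_of_le (by norm_num) (by linarith)
    linarith
  · rw [hD2]
    have h5 : 1 / ((4 : ℝ) ^ b * 1000) ≤ 1 / ((b : ℝ) + 1) :=
      one_div_le_one_div_of_le (by positivity) (by linarith)
    linarith
  · rw [hD3, hD1]
    have e : R0 / 2 + η - R0 / 2 = η := by ring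
    rw [e]
    calc ((4 * (Mb b : ℝ) + 1) * (H + 1)) * (2 * η)
        = (((4 * (Mb b : ℝ) + 1) * (H + 1)) * 2) * η := by ring
      _ ≤ (((4 * (Mb b : ℝ) + 1) * (H + 1)) * 2) * η0 :=
          mul_le_mul_of_nonneg_left hη1 (by positivity)
      _ ≤ _ := hη0'

/-! ### numerics -/

theorem one_le_Mb (b : ℕ) : 1 ≤ Mb b := Nat.one_le_two_pow
theorem one_le_rb (b : ℕ) : 1 ≤ rb b := Nat.one_le_two_pow
theorem one_le_Pib (b : ℕ) : 1 ≤ Pib b := Nat.one_le_two_pow

theorem two_le_Mb {b : ℕ} (hb : 1 ≤ b) : 2 ≤ Mb b := by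
  unfold Mb
  calc 2 = 2 ^ 1 := rfl
    _ ≤ _ := Nat.pow_le_pow_right (by norm_num) (by nlinarith)

theorem rb_le_Pib (b : ℕ) : rb b + 1 ≤ Pib b := by
  have h0 : 1 ≤ 2 ^ (30 * b) := Nat.one_le_two_pow
  have h1 : 2 ^ (30 * b) + 1 ≤ 2 ^ (30 * b + 1) := by rw [pow_succ]; omega
  have h2 : b ≤ b ^ 2 := Nat.le_self_pow two_ne_zero b
  have h3 : 30 * b + 1 ≤ 6000 * b ^ 2 + 10 := by omega
  have h4 : 2 ^ (30 * b + 1) ≤ 2 ^ (6000 * b ^ 2 + 10) := Nat.pow_le_pow_right (by norm_num) h3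
  unfold rb Pib
  exact h1.trans h4

/-- `M_{b+1+j} ≥ 2^j M_{b+1}` and the smallness of the tail sum -/
theorem Mb_growth (b j : ℕ) : Mb (b + 1) * 2 ^ j ≤ Mb (b + 1 + j) := by
  unfold Mb
  rw [← pow_add]
  refine Nat.pow_le_pow_right (by norm_num) ?_
  nlinarith [Nat.zero_le b, Nat.zero_le j]

theorem Mb_succ_ge (b : ℕ) : 2 ^ 20 * (4 ^ b * (rb b * Mb b)) ≤ Mb (b + 1) := by
  have : (4 : ℕ) ^ b = 2 ^ (2 * b) := by rw [pow_mul]; norm_num
  unfold Mb rb
  rw [this, ← pow_add, ← pow_add, ← pow_add]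
  refine Nat.pow_le_pow_right (by norm_num) ?_
  nlinarith [Nat.zero_le b]

theorem tail_num_aux (M r M1 q F : ℝ) (hM : 1 ≤ M) (hr : 1 ≤ r) (hM1 : 1 ≤ M1) (hq : 0 < q)
    (hqF : q * F = 1) (h1 : (2 : ℝ) ^ 20 * (F * (r * M)) ≤ M1) :
    (4 * M + 1 + r * M) * (6 / M1) ≤ q / 8 := by
  have hrM : M ≤ r * M := le_mul_of_one_le_left (by linarith) hr
  have h2 : (4 * M + 1 + r * M) ≤ 6 * (r * M) := by linarith
  rw [mul_div_assoc', div_le_iff₀ (by linarith)]
  have h0 : 0 ≤ r * M := by positivity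
  calc (4 * M + 1 + r * M) * 6 ≤ 36 * (r * M) := by linarith
    _ = (q * F) * (36 * (r * M)) := by rw [hqF, one_mul]
    _ ≤ q / 8 * ((2 : ℝ) ^ 20 * (F * (r * M))) := by
        have : q / 8 * ((2 : ℝ) ^ 20 * (F * (r * M))) = (q * F) * (131072 * (r * M)) := by ring
        rw [this, hqF]
        linarith
    _ ≤ _ := mul_le_mul_of_nonneg_left h1 (by positivity)

theorem tail_num (b : ℕ) : (4 * (Mb b : ℝ) + 1 + rb b * Mb b) * (6 / Mb (b + 1)) ≤
    (1 / 4 : ℝ) ^ b / 8 := by
  have hM : (1 : ℝ) ≤ Mb b := by exact_mod_cast one_le_Mb b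
  have hr : (1 : ℝ) ≤ rb b := by exact_mod_cast one_le_rb b
  have hM1 : (1 : ℝ) ≤ Mb (b + 1) := by exact_mod_cast one_le_Mb (b + 1)
  have h1 : (2 : ℝ) ^ 20 * (4 ^ b * (rb b * Mb b)) ≤ Mb (b + 1) := by exact_mod_cast Mb_succ_ge b
  have h3 : (1 / 4 : ℝ) ^ b * 4 ^ b = 1 := by rw [← mul_pow]; norm_num
  exact tail_num_aux _ _ _ _ _ hM hr hM1 (by positivity) h3 h1

end Crest.Agent.R113.Circ
end

-- ▼ part R113/Circ/Cost
section

/-! Row 113, T16: the total cost function `u` and its continuity properties. -/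

set_option autoImplicit false

namespace Crest.Agent.R113.Circ

open MeasureTheory Metric Finset Filter Topology

/-- all blocks chosen -/
structure Setup (θ : ℝ) where
  v : ℕ → ℝ
  g : ℕ → ℕ
  v_tendsto : Tendsto v atTop (𝓝 0)
  g_le : ∀ b, 4 ^ b * g b ≤ Mb b
  g_pos : ∀ b, 1 ≤ g b
  B : ∀ b, BlockPar θ b (v b) (g b)

theorem exists_setup {θ : ℝ} (hθ : Irrational θ) : Nonempty (Setup θ) := by
  obtain ⟨v, g, h1, h2, h3, h4⟩ := exists_arcs hθ
  exact ⟨⟨v, g, h1, h2, h3, fun b => (exists_blockPar hθ b (v b) (g b) (h4 b)).some⟩⟩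

theorem epsw_nonneg (w : ℕ → ℕ → Bool) (b a : ℕ) : 0 ≤ epsw w b a := by
  unfold epsw; split_ifs <;> norm_num

theorem epsw_le (w : ℕ → ℕ → Bool) (b a : ℕ) : epsw w b a ≤ 1 := by
  unfold epsw; split_ifs <;> norm_num

namespace Setup

variable {θ : ℝ} (S : Setup θ) (w : ℕ → ℕ → Bool)

/-- `Σ_{b' < b} 3 c_{b'}` -/
noncomputable def sumC : ℕ → ℝ
  | 0 => 0
  | b + 1 => sumC b +
      3 * (4 ^ b * (Mb b : ℝ) ^ 20 * (1 + rb b * Mb b * (sumC b + ((S.B b).δ ^ 2)⁻¹)))

/-- the error `e_b` -/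
noncomputable def e (b : ℕ) : ℝ := rb b * Mb b * (S.sumC b + ((S.B b).δ ^ 2)⁻¹)

/-- the cost `c_b` -/
noncomputable def c (b : ℕ) : ℝ := 4 ^ b * (Mb b : ℝ) ^ 20 * (1 + S.e b)

theorem sumC_succ (b : ℕ) : S.sumC (b + 1) = S.sumC b + 3 * S.c b := rfl

theorem sumC_nonneg (b : ℕ) : 0 ≤ S.sumC b := by
  induction b with
  | zero => exact le_rfl
  | succ b ih =>
    rw [sumC_succ, c, e]
    positivity

theorem e_nonneg (b : ℕ) : 0 ≤ S.e b := by
  have := S.sumC_nonneg b
  unfold e; positivity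

theorem c_nonneg (b : ℕ) : 0 ≤ S.c b := by
  have := S.e_nonneg b
  unfold c; positivity

theorem sumC_eq (b : ℕ) : S.sumC b = ∑ i ∈ range b, 3 * S.c i := by
  induction b with
  | zero => rfl
  | succ b ih => rw [sumC_succ, ih, Finset.sum_range_succ]

/-- weights -/
noncomputable def wt (b k : ℕ) : ℝ := S.c b * (2 + epsw w b (k - 1) - epsw w b k)

theorem wt_nonneg (b k : ℕ) : 0 ≤ S.wt w b k := by
  have h1 := epsw_nonneg w b (k - 1)
  have h2 := epsw_le w b k
  exact mul_nonneg (S.c_nonneg b) (by linarith)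

theorem wt_le (b k : ℕ) : S.wt w b k ≤ 3 * S.c b := by
  have h1 := epsw_le w b (k - 1)
  have h2 := epsw_nonneg w b k
  have h3 := S.c_nonneg b
  unfold wt
  nlinarith

/-- number of pieces used -/
def K (b : ℕ) : ℕ := (S.B b).H + rb b * Mb b + 1

/-- cost of block `b` -/
noncomputable def ub (b : ℕ) (x : UnitAddCircle) : ℝ := (S.B b).D.cost (S.wt w b) (S.K b) x

theorem ub_nonneg (b : ℕ) (x : UnitAddCircle) : 0 ≤ S.ub w b x :=
  (S.B b).D.cost_nonneg (S.wt_nonneg w b) _ _

theorem g_le' (b : ℕ) : S.g b ≤ Mb b :=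
  (Nat.le_mul_of_pos_left _ (by positivity)).trans (S.g_le b)

theorem ub_le (b : ℕ) (x : UnitAddCircle) : S.ub w b x ≤ 3 * S.c b :=
  (S.B b).D.cost_le (S.g_le' b) (by have := S.c_nonneg b; positivity) (S.wt_le w b) _ _

theorem ub_cont (b : ℕ) : Continuous (S.ub w b) := (S.B b).D.cost_cont _ _

theorem ub_eq_zero {b : ℕ} {x : UnitAddCircle} (hx : x ∉ (S.B b).D.W) : S.ub w b x = 0 :=
  (S.B b).D.cost_eq_zero hx

theorem norm_le_of_mem_W {b : ℕ} {x : UnitAddCircle} (hx : x ∈ (S.B b).D.W) :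
    ‖x‖ ≤ S.v b + 1 / ((b : ℝ) + 1) := by
  obtain ⟨k, hk⟩ := hx
  have h1 := ((S.B b).D.piece_ne_zero hk).1
  have h2 := (S.B b).t_mem k
  have h3 := (S.B b).r2_le
  simp only [mem_ball, dist_zero_right] at h1 h2
  have h4 : ‖x‖ ≤ ‖x - (S.B b).D.t k • (θ : UnitAddCircle)‖ + ‖(S.B b).D.t k • (θ : UnitAddCircle)‖ := by
    calc ‖x‖ = ‖(x - (S.B b).D.t k • (θ : UnitAddCircle)) + (S.B b).D.t k • (θ : UnitAddCircle)‖ := by
          rw [sub_add_cancel]
      _ ≤ _ := norm_add_le _ _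
  linarith

theorem eventually_not_mem_W {ρ : ℝ} (hρ : 0 < ρ) :
    ∃ N : ℕ, ∀ b, N ≤ b → ∀ x : UnitAddCircle, ρ < ‖x‖ → x ∉ (S.B b).D.W := by
  have h1 : Tendsto (fun b : ℕ => S.v b + 1 / ((b : ℝ) + 1)) atTop (𝓝 (0 + 0)) :=
    S.v_tendsto.add tendsto_one_div_add_atTop_nhds_zero_nat
  rw [add_zero] at h1
  obtain ⟨N, hN⟩ := eventually_atTop.1 (h1.eventually (gt_mem_nhds hρ))
  refine ⟨N, fun b hb x hx hmem => ?_⟩
  have := S.norm_le_of_mem_W hmem
  have := hN b hb
  linarith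

/-- the total cost -/
noncomputable def u (x : UnitAddCircle) : ℝ := (‖x‖ ^ 2)⁻¹ + ∑' b, S.ub w b x

theorem u_eq {N : ℕ} {x : UnitAddCircle} (hN : ∀ b, N ≤ b → x ∉ (S.B b).D.W) :
    S.u w x = (‖x‖ ^ 2)⁻¹ + ∑ b ∈ range N, S.ub w b x := by
  unfold u
  rw [tsum_eq_sum]
  intro b hb
  exact S.ub_eq_zero w (hN b (by simpa using hb))

theorem tsum_nonneg' (x : UnitAddCircle) : 0 ≤ ∑' b, S.ub w b x := tsum_nonneg fun b => S.ub_nonneg w b x

theorem u_nonneg (x : UnitAddCircle) : 0 ≤ S.u w x :=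
  add_nonneg (by positivity) (S.tsum_nonneg' w x)

theorem u_ge (x : UnitAddCircle) : (‖x‖ ^ 2)⁻¹ ≤ S.u w x :=
  le_add_of_nonneg_right (S.tsum_nonneg' w x)

theorem u_continuousAt {x : UnitAddCircle} (hx : x ≠ 0) : ContinuousAt (S.u w) x := by
  have hpos : 0 < ‖x‖ := norm_pos_iff.2 hx
  obtain ⟨N, hN⟩ := S.eventually_not_mem_W (ρ := ‖x‖ / 2) (by positivity)
  have hev : ∀ᶠ y in 𝓝 x, ‖x‖ / 2 < ‖y‖ := by
    have : ContinuousAt (fun y : UnitAddCircle => ‖y‖) x := continuous_norm.continuousAt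
    exact this.eventually (lt_mem_nhds (by linarith))
  have heq : S.u w =ᶠ[𝓝 x] fun y => (‖y‖ ^ 2)⁻¹ + ∑ b ∈ range N, S.ub w b y := by
    filter_upwards [hev] with y hy
    exact S.u_eq w (fun b hb => hN b hb y hy)
  rw [continuousAt_congr heq]
  have h1 : ContinuousAt (fun y : UnitAddCircle => (‖y‖ ^ 2)⁻¹) x :=
    ((continuous_norm.pow 2).continuousAt).inv₀ (pow_ne_zero 2 hpos.ne')
  refine h1.add ?_
  have : Continuous fun y => ∑ b ∈ range N, S.ub w b y :=
    continuous_finsetSum _ fun b _ => S.ub_cont w b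
  exact this.continuousAt

theorem u_measurable : Measurable (S.u w) := by
  refine measurable_of_continuousOn_compl_singleton 0 ?_
  intro x hx
  exact (S.u_continuousAt w hx).continuousWithinAt

theorem f_continuous :
    Continuous fun x : UnitAddCircle => if x = 0 then (0 : ℝ) else Real.exp (-S.u w x) := by
  rw [continuous_iff_continuousAt]
  intro x
  by_cases hx : x = 0
  · subst hx
    have hbound : ∀ y : UnitAddCircle, ‖(if y = 0 then (0 : ℝ) else Real.exp (-S.u w y))‖ ≤ ‖y‖ ^ 2 := by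
      intro y
      split_ifs with hy
      · simp
      · have hpos : 0 < ‖y‖ := norm_pos_iff.2 hy
        rw [Real.norm_of_nonneg (Real.exp_pos _).le]
        have h1 : (‖y‖ ^ 2)⁻¹ ≤ S.u w y := S.u_ge w y
        have h2 : (‖y‖ ^ 2)⁻¹ ≤ Real.exp (S.u w y) :=
          h1.trans ((by linarith [Real.add_one_le_exp (S.u w y)] : S.u w y ≤ _))
        rw [Real.exp_neg]
        exact inv_le_of_inv_le₀ (by positivity) h2
    have h0 : Tendsto (fun y : UnitAddCircle => ‖y‖ ^ 2) (𝓝 0) (𝓝 0) := by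
      have : Continuous fun y : UnitAddCircle => ‖y‖ ^ 2 := by fun_prop
      simpa using this.tendsto 0
    unfold ContinuousAt
    simp only [if_true]
    exact squeeze_zero_norm hbound h0
  · have hne : ∀ᶠ y in 𝓝 x, y ≠ 0 := isOpen_ne.mem_nhds hx
    have heq : (fun y : UnitAddCircle => if y = 0 then (0 : ℝ) else Real.exp (-S.u w y)) =ᶠ[𝓝 x]
        fun y => Real.exp (-S.u w y) := by
      filter_upwards [hne] with y hy
      rw [if_neg hy]
    rw [continuousAt_congr heq]
    exact Real.continuous_exp.continuousAt.comp (S.u_continuousAt w hx).neg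

theorem lintegral_u : ∫⁻ x : UnitAddCircle, ENNReal.ofReal (S.u w x) = ⊤ := by
  refine ENNReal.eq_top_of_forall_nnreal_le fun r => ?_
  obtain ⟨n, hn⟩ := exists_nat_ge (r : ℝ)
  have h0 : volume ({0} : Set UnitAddCircle) = 0 := by
    have := AddCircle.volume_closedBall (T := (1 : ℝ)) (x := (0 : UnitAddCircle)) 0
    rw [closedBall_zero, mul_zero, min_eq_right zero_le_one, ENNReal.ofReal_zero] at this
    exact this
  have hmark := mul_meas_ge_le_lintegral (μ := (volume : Measure UnitAddCircle))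
    (f := fun x => ENNReal.ofReal (S.u w x)) (S.u_measurable w).ennreal_ofReal
    (ENNReal.ofReal (((n : ℝ) + 2) ^ 2))
  refine le_trans ?_ hmark
  have hsub : closedBall (0 : UnitAddCircle) (1 / ((n : ℝ) + 2)) \ {0} ⊆
      {x | ENNReal.ofReal (((n : ℝ) + 2) ^ 2) ≤ ENNReal.ofReal (S.u w x)} := by
    rintro x ⟨hx1, hx2⟩
    have hx0 : x ≠ 0 := hx2
    have hpos : 0 < ‖x‖ := norm_pos_iff.2 hx0
    simp only [mem_closedBall, dist_zero_right] at hx1
    refine ENNReal.ofReal_le_ofReal ((?_ : _ ≤ _).trans (S.u_ge w x))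
    rw [le_inv_comm₀ (by positivity) (by positivity)]
    calc ‖x‖ ^ 2 ≤ (1 / ((n : ℝ) + 2)) ^ 2 := pow_le_pow_left₀ hpos.le hx1 2
      _ = _ := by rw [one_div, inv_pow]
  have hvol : ENNReal.ofReal (2 * (1 / ((n : ℝ) + 2))) ≤
      volume {x | ENNReal.ofReal (((n : ℝ) + 2) ^ 2) ≤ ENNReal.ofReal (S.u w x)} := by
    refine le_trans ?_ (measure_mono hsub)
    rw [measure_sdiff_null h0, AddCircle.volume_closedBall, min_eq_right]
    rw [mul_one_div, div_le_one (by positivity)]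
    have : (0 : ℝ) ≤ n := by positivity
    linarith
  refine le_trans ?_ (mul_le_mul_right hvol _)
  rw [← ENNReal.ofReal_mul (by positivity)]
  rw [← ENNReal.ofReal_coe_nnreal]
  refine ENNReal.ofReal_le_ofReal ?_
  have e : ((n : ℝ) + 2) ^ 2 * (2 * (1 / ((n : ℝ) + 2))) = 2 * (n + 2) := by
    field_simp
  rw [e]
  have : (0 : ℝ) ≤ n := by positivity
  linarith

end Setup

end Crest.Agent.R113.Circ
end

-- ▼ part R113/Circ/Main

/-! Row 113, T16: the design theorem on the circle. -/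

set_option autoImplicit false

namespace Crest.Agent.R113.Circ

open MeasureTheory Metric Finset Filter Topology

attribute [local irreducible] Mb rb Pib

namespace Setup

variable {θ : ℝ} (S : Setup θ) (w : ℕ → ℕ → Bool)

/-- the outer arc of block `b` -/
def J (b : ℕ) : Set UnitAddCircle := ball (0 : UnitAddCircle) (S.B b).D.r3

/-- level of block `b` -/
noncomputable def lv (b : ℕ) (x : UnitAddCircle) : ℕ := lev (θ : UnitAddCircle) (S.J b) x

theorem r1_lt_r3 (b : ℕ) : (S.B b).D.r1 < (S.B b).D.r3 := (S.B b).D.r12.trans (S.B b).D.r23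


theorem hJ (b : ℕ) (x : UnitAddCircle) : ∃ j : ℕ, x - j • (θ : UnitAddCircle) ∈ S.J b := by
  obtain ⟨j, -, hj⟩ := (S.B b).gap x
  exact ⟨j, ball_subset_ball (S.r1_lt_r3 b).le hj⟩

theorem lv_lt (b : ℕ) (x : UnitAddCircle) : S.lv b x < (S.B b).H := by
  obtain ⟨j, hj1, hj⟩ := (S.B b).gap x
  exact (lev_le (ball_subset_ball (S.r1_lt_r3 b).le hj)).trans_lt hj1

theorem measurableSet_J (b : ℕ) : MeasurableSet (S.J b) := measurableSet_ball

theorem measurable_lv (b : ℕ) : Measurable (S.lv b) :=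
  measurable_lev (S.hJ b) (S.measurableSet_J b)

theorem volume_J_le (b : ℕ) : volume (S.J b) ≤
    ENNReal.ofReal (2 * (1 / (4 ^ b * (1000 * ((Pib b : ℝ) * Mb b))))) :=
  (volume_ball_le _).trans (ENNReal.ofReal_le_ofReal (by linarith [(S.B b).r3_le]))

/-- long horizon -/
def LL (b : ℕ) : ℕ := 2 * (Pib b * Mb b)

def bad1 (b : ℕ) : Set UnitAddCircle := {x | S.lv b x < LL b}
def bad2 (b : ℕ) : Set UnitAddCircle :=
  {x | ∃ i : ℕ, i ≤ LL b ∧ x + i • (θ : UnitAddCircle) ∈ S.J b}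
def bad3 (b : ℕ) : Set UnitAddCircle :=
  {x | x - S.lv b x • (θ : UnitAddCircle) ∉ closedBall (0 : UnitAddCircle) (S.B b).D.r1}
/-- higher blocks -/
def hi (b : ℕ) : Set UnitAddCircle := ⋃ j : ℕ, (S.B (b + 1 + j)).D.W
def bad4 (b : ℕ) : Set UnitAddCircle :=
  {x | ∃ i : ℕ, i ≤ rb b * Mb b ∧ x + i • (θ : UnitAddCircle) ∈ S.hi b}
def bad5 (b : ℕ) : Set UnitAddCircle :=
  {x | ∃ i : ℕ, i ≤ rb b * Mb b ∧ x + i • (θ : UnitAddCircle) ∈ ball (0 : UnitAddCircle) (S.B b).δ}

def Bad (b : ℕ) : Set UnitAddCircle := S.bad1 b ∪ S.bad2 b ∪ S.bad3 b ∪ S.bad4 b ∪ S.bad5 b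

theorem meas_exists {A : Set UnitAddCircle} (hA : MeasurableSet A) (N : ℕ) (α : UnitAddCircle) :
    MeasurableSet {x : UnitAddCircle | ∃ i : ℕ, i ≤ N ∧ x + i • α ∈ A} := by
  have : {x : UnitAddCircle | ∃ i : ℕ, i ≤ N ∧ x + i • α ∈ A} =
      ⋃ i ∈ Finset.range (N + 1), (fun x : UnitAddCircle => x + i • α) ⁻¹' A := by
    ext x; simp
  rw [this]
  exact Finset.measurableSet_biUnion _ fun i _ => (measurable_id.add_const _) hA

theorem measurableSet_hi (b : ℕ) : MeasurableSet (S.hi b) :=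
  MeasurableSet.iUnion fun j => (S.B (b + 1 + j)).D.isOpen_W.measurableSet

theorem measurableSet_bad3 (b : ℕ) : MeasurableSet (S.bad3 b) := by
  have h0 : Measurable fun x : UnitAddCircle => S.lv b x • (θ : UnitAddCircle) := by
    have h01 : Measurable (fun n : ℕ => n • (θ : UnitAddCircle)) := measurable_of_countable _
    have h02 := S.measurable_lv b
    exact h01.comp h02
  have h1 : Measurable fun x : UnitAddCircle => x - S.lv b x • (θ : UnitAddCircle) :=
    Measurable.sub measurable_id h0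
  have h2 : MeasurableSet (closedBall (0 : UnitAddCircle) (S.B b).D.r1) :=
    isClosed_closedBall.measurableSet
  exact (h1 h2).compl

theorem measurableSet_Bad (b : ℕ) : MeasurableSet (S.Bad b) := by
  refine ((((?_ : MeasurableSet (S.bad1 b)).union ?_).union ?_).union ?_).union ?_
  · exact (S.measurable_lv b) (measurableSet_Iio (a := LL b))
  · exact meas_exists (S.measurableSet_J b) _ _
  · exact S.measurableSet_bad3 b
  · exact meas_exists (S.measurableSet_hi b) _ _
  · exact meas_exists measurableSet_ball _ _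

/-! ### D1, D2 -/

theorem D2 (b : ℕ) {x : UnitAddCircle} (hx : x ∉ S.Bad b) :
    LL b ≤ S.lv b x ∧ ∀ i : ℕ, i ≤ LL b → S.lv b (x + i • (θ : UnitAddCircle)) = S.lv b x + i := by
  simp only [Bad, Set.mem_union, not_or] at hx
  obtain ⟨⟨⟨⟨h1, h2⟩, h3⟩, h4⟩, h5⟩ := hx
  refine ⟨by simpa [bad1] using h1, fun i hi => ?_⟩
  refine lev_add_nat (S.hJ b) i fun i' _ hi' hmem => h2 ⟨i', by omega, hmem⟩

/-! ### measure of the bad set -/

theorem volume_hi_le (b : ℕ) : volume (S.hi b) ≤ ENNReal.ofReal (6 / Mb (b + 1)) := by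
  refine (measure_iUnion_le _).trans ?_
  have hM1 : (1 : ℝ) ≤ Mb (b + 1) := by exact_mod_cast one_le_Mb (b + 1)
  have h1 : ∀ j : ℕ, volume (S.B (b + 1 + j)).D.W ≤ ENNReal.ofReal (3 / Mb (b + 1) * (1 / 2) ^ j) := by
    intro j
    have hb : 1 ≤ b + 1 + j := by omega
    have hg : 2 * S.g (b + 1 + j) ≤ Mb (b + 1 + j) := by
      have h4 := S.g_le (b + 1 + j)
      have h5 : 2 ≤ 4 ^ (b + 1 + j) := by
        calc 2 ≤ 4 ^ 1 := by norm_num
          _ ≤ 4 ^ (b + 1 + j) := Nat.pow_le_pow_right (by norm_num) hb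
      exact (Nat.mul_le_mul_right _ h5).trans h4
    refine ((S.B (b + 1 + j)).D.volume_W_le hg (two_le_Mb hb)).trans (ENNReal.ofReal_le_ofReal ?_)
    have h6 : (Mb (b + 1) : ℝ) * 2 ^ j ≤ Mb (b + 1 + j) := by exact_mod_cast Mb_growth b j
    calc 3 / (Mb (b + 1 + j) : ℝ) ≤ 3 / ((Mb (b + 1) : ℝ) * 2 ^ j) :=
          div_le_div_of_nonneg_left (by norm_num) (by positivity) h6
      _ = _ := by rw [div_mul_eq_div_div, one_div, inv_pow, div_eq_mul_inv (3 / _)]
  refine (ENNReal.tsum_le_tsum h1).trans ?_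
  rw [← ENNReal.ofReal_tsum_of_nonneg (fun j => by positivity)
    (summable_geometric_two.mul_left _), tsum_mul_left, tsum_geometric_two]
  exact ENNReal.ofReal_le_ofReal (by rw [div_mul_eq_mul_div]; norm_num)

theorem bound_translate (α : UnitAddCircle) {F : Finset ℤ} {A : Set UnitAddCircle} {n : ℝ} {s q : ℝ}
    (hF : (F.card : ℝ) ≤ n) (hA : volume A ≤ ENNReal.ofReal s) (hs : 0 ≤ s) (h : n * s ≤ q) :
    volume {x : UnitAddCircle | ∃ i ∈ F, x + i • α ∈ A} ≤ ENNReal.ofReal q := by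
  refine (volume_exists_translate_le α F A).trans ?_
  calc (F.card : ENNReal) * volume A ≤ ENNReal.ofReal F.card * ENNReal.ofReal s := by
        rw [ENNReal.ofReal_natCast]
        exact mul_le_mul_right hA _
    _ = ENNReal.ofReal (F.card * s) := by rw [ENNReal.ofReal_mul (by positivity)]
    _ ≤ _ := ENNReal.ofReal_le_ofReal ((mul_le_mul_of_nonneg_right hF hs).trans h)

theorem add_zsmul_nsmul (α x : UnitAddCircle) (i : ℤ) (j : ℕ) :
    x + i • α + j • α = x + (i + (j : ℤ)) • α := by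
  rw [add_zsmul, natCast_zsmul, add_assoc]

theorem add_zsmul_sub_nsmul (α x : UnitAddCircle) (i : ℤ) (j : ℕ) :
    x + i • α - j • α = x + (i - (j : ℤ)) • α := by
  rw [sub_zsmul, natCast_zsmul]; abel

theorem volume_collar_le (b : ℕ) : volume (S.bad3 b) ≤
    ENNReal.ofReal (((S.B b).H + 1) * (2 * ((S.B b).D.r3 - (S.B b).D.r1))) := by
  have hsub : S.bad3 b ⊆ {x | ∃ s ∈ Finset.Icc (-((S.B b).H : ℤ)) 0, x + s • (θ : UnitAddCircle) ∈
      ball (0 : UnitAddCircle) (S.B b).D.r3 \ closedBall 0 (S.B b).D.r1} := by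
    intro x hx
    have h1 := lev_spec (S.hJ b x)
    have h2 := S.lv_lt b x
    refine ⟨-(S.lv b x : ℤ), ?_, ?_⟩
    · simp only [Finset.mem_Icc]; omega
    · rw [neg_zsmul, natCast_zsmul, ← sub_eq_add_neg]
      exact ⟨h1, hx⟩
  refine (measure_mono hsub).trans ?_
  refine bound_translate _ (n := (S.B b).H + 1) ?_
    (volume_annulus_le (S.B b).r1_pos.le (S.r1_lt_r3 b).le (S.B b).r3_half)
    (by linarith [S.r1_lt_r3 b]) le_rfl
  rw [Int.card_Icc]
  have : (0 + 1 - -((S.B b).H : ℤ)).toNat = (S.B b).H + 1 := by omega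
  rw [this]; push_cast; exact le_rfl

theorem D2vol (b : ℕ) : volume {x : UnitAddCircle | ∃ i : ℤ, |i| ≤ 2 * (Mb b : ℤ) ∧
    x + i • (θ : UnitAddCircle) ∈ S.Bad b} ≤ ENNReal.ofReal ((1 / 4 : ℝ) ^ b) := by
  set α : UnitAddCircle := (θ : UnitAddCircle) with hα
  have hM : 1 ≤ Mb b := one_le_Mb b
  have hP : 1 ≤ Pib b := one_le_Pib b
  have hPM : Mb b ≤ Pib b * Mb b := Nat.le_mul_of_pos_left _ hP
  have hMr : (1 : ℝ) ≤ Mb b := by exact_mod_cast hM
  have hPMr : (Mb b : ℝ) ≤ Pib b * Mb b := by exact_mod_cast hPM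
  have hq : (0 : ℝ) < (1 / 4 : ℝ) ^ b := by positivity
  set q := (1 / 4 : ℝ) ^ b / 8 with hqdef
  -- the four unions
  set F1 : Finset ℤ := Finset.Icc (-(4 * (Pib b * Mb b : ℕ) : ℤ)) (4 * (Pib b * Mb b : ℕ)) with hF1
  set F2 : Finset ℤ := Finset.Icc (-(2 * (Mb b : ℤ))) (2 * (Mb b : ℤ)) with hF2
  set F3 : Finset ℤ := Finset.Icc (-(2 * (Mb b : ℤ))) (2 * (Mb b : ℤ) + (rb b * Mb b : ℕ)) with hF3
  have hsub : {x : UnitAddCircle | ∃ i : ℤ, |i| ≤ 2 * (Mb b : ℤ) ∧ x + i • α ∈ S.Bad b} ⊆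
      ({x | ∃ i ∈ F1, x + i • α ∈ S.J b} ∪ {x | ∃ i ∈ F2, x + i • α ∈ S.bad3 b}) ∪
      ({x | ∃ i ∈ F3, x + i • α ∈ S.hi b} ∪
        {x | ∃ i ∈ F3, x + i • α ∈ ball (0 : UnitAddCircle) (S.B b).δ}) := by
    rintro x ⟨i, hi, hx⟩
    rw [abs_le] at hi
    rcases hx with (((hx | hx) | hx) | hx) | hx
    · left; left
      have h1 := lev_spec (S.hJ b (x + i • α))
      have h2 : S.lv b (x + i • α) < LL b := hx
      refine ⟨i - (S.lv b (x + i • α) : ℤ), ?_, ?_⟩
      · simp only [hF1, Finset.mem_Icc]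
        unfold LL at h2
        push_cast at *
        constructor <;> omega
      · rw [← add_zsmul_sub_nsmul]; exact h1
    · left; left
      obtain ⟨j, hj, hx⟩ := hx
      refine ⟨i + (j : ℤ), ?_, ?_⟩
      · simp only [hF1, Finset.mem_Icc]
        unfold LL at hj
        push_cast at *
        constructor <;> omega
      · rw [← add_zsmul_nsmul]; exact hx
    · left; right
      refine ⟨i, ?_, hx⟩
      simp only [hF2, Finset.mem_Icc]; omega
    · right; left
      obtain ⟨j, hj, hx⟩ := hx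
      refine ⟨i + (j : ℤ), ?_, ?_⟩
      · simp only [hF3, Finset.mem_Icc]
        push_cast at *
        constructor <;> omega
      · rw [← add_zsmul_nsmul]; exact hx
    · right; right
      obtain ⟨j, hj, hx⟩ := hx
      refine ⟨i + (j : ℤ), ?_, ?_⟩
      · simp only [hF3, Finset.mem_Icc]
        push_cast at *
        constructor <;> omega
      · rw [← add_zsmul_nsmul]; exact hx
  have c1 : volume {x : UnitAddCircle | ∃ i ∈ F1, x + i • α ∈ S.J b} ≤ ENNReal.ofReal q := by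
    refine bound_translate α (n := 9 * (Pib b * Mb b)) ?_ (S.volume_J_le b) (by positivity) ?_
    · have : F1.card = 8 * (Pib b * Mb b) + 1 := by
        rw [hF1, Int.card_Icc]; push_cast; omega
      rw [this]; push_cast; linarith
    · have h4 : (1 / 4 : ℝ) ^ b * 4 ^ b = 1 := by rw [← mul_pow]; norm_num
      have hx : (0 : ℝ) < (Pib b : ℝ) * Mb b := by linarith
      rw [hqdef, mul_one_div, mul_div_assoc', div_le_iff₀ (by positivity)]
      have : (1 / 4 : ℝ) ^ b / 8 * (4 ^ b * (1000 * ((Pib b : ℝ) * Mb b))) =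
          ((1 / 4 : ℝ) ^ b * 4 ^ b) * (125 * ((Pib b : ℝ) * Mb b)) := by ring
      rw [this, h4]; linarith
  have c2 : volume {x : UnitAddCircle | ∃ i ∈ F2, x + i • α ∈ S.bad3 b} ≤ ENNReal.ofReal q := by
    refine bound_translate α (n := 4 * (Mb b : ℝ) + 1) ?_ (S.volume_collar_le b) ?_ ?_
    · have : F2.card = 4 * Mb b + 1 := by
        rw [hF2, Int.card_Icc]; omega
      rw [this]; push_cast; exact le_rfl
    · have := S.r1_lt_r3 b
      have : 0 ≤ (S.B b).D.r3 - (S.B b).D.r1 := by linarith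
      positivity
    · rw [← mul_assoc]; exact (S.B b).collar
  have hF3c : (F3.card : ℝ) ≤ 4 * (Mb b : ℝ) + 1 + rb b * Mb b := by
    have : F3.card = 4 * Mb b + 1 + rb b * Mb b := by
      rw [hF3, Int.card_Icc]; push_cast; omega
    rw [this]; push_cast; exact le_rfl
  have c3 : volume {x : UnitAddCircle | ∃ i ∈ F3, x + i • α ∈ S.hi b} ≤ ENNReal.ofReal q :=
    bound_translate α hF3c (S.volume_hi_le b) (by positivity) (tail_num b)
  have c4 : volume {x : UnitAddCircle | ∃ i ∈ F3, x + i • α ∈ ball (0 : UnitAddCircle) (S.B b).δ} ≤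
      ENNReal.ofReal q :=
    bound_translate α hF3c (volume_ball_le _) (by have := (S.B b).δ_pos; positivity) (S.B b).delta
  refine (measure_mono hsub).trans ?_
  refine (measure_union_le _ _).trans ?_
  refine (add_le_add ((measure_union_le _ _).trans (add_le_add c1 c2))
    ((measure_union_le _ _).trans (add_le_add c3 c4))).trans ?_
  rw [← ENNReal.ofReal_add (by positivity) (by positivity),
    ← ENNReal.ofReal_add (by positivity) (by positivity)]
  refine ENNReal.ofReal_le_ofReal ?_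
  rw [hqdef]; linarith

/-! ### D3 -/

theorem D3 (b : ℕ) {x : UnitAddCircle} (hx : x ∉ S.Bad b) (n : ℕ) (hn : n ≤ rb b * Mb b)
    (h1 : S.g b ≤ S.lv b x % Mb b) (h2 : S.g b ≤ (S.lv b x + n) % Mb b) :
    S.c b * (2 * ((((S.lv b x + n) / Mb b : ℕ) : ℝ) - ((S.lv b x / Mb b : ℕ) : ℝ))
        + epsw w b (S.lv b x / Mb b) - epsw w b ((S.lv b x + n) / Mb b))
      ≤ ∑ i ∈ Finset.range n, S.u w (x + i • (θ : UnitAddCircle)) ∧
    ∑ i ∈ Finset.range n, S.u w (x + i • (θ : UnitAddCircle)) ≤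
      S.c b * (2 * ((((S.lv b x + n) / Mb b : ℕ) : ℝ) - ((S.lv b x / Mb b : ℕ) : ℝ))
        + epsw w b (S.lv b x / Mb b) - epsw w b ((S.lv b x + n) / Mb b)) + S.e b := by
  have hM : 1 ≤ Mb b := one_le_Mb b
  have hr : 1 ≤ rb b := one_le_rb b
  have hrP := rb_le_Pib b
  have hrM : Mb b ≤ rb b * Mb b := Nat.le_mul_of_pos_left _ hr
  have hPM : rb b * Mb b + Mb b ≤ Pib b * Mb b := by
    calc rb b * Mb b + Mb b = (rb b + 1) * Mb b := by ring
      _ ≤ _ := Nat.mul_le_mul_right _ hrP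
  obtain ⟨hlev, -⟩ := S.D2 b hx
  simp only [Bad, Set.mem_union, not_or] at hx
  obtain ⟨⟨⟨⟨hb1, hb2⟩, hb3⟩, hb4⟩, hb5⟩ := hx
  set α : UnitAddCircle := (θ : UnitAddCircle) with hα
  set j := S.lv b x with hj
  set y := x - j • α with hy
  have hyx : ∀ i : ℕ, x + i • α = y + (j + i) • α := by
    intro i; rw [hy, add_smul]; abel
  have hyI : y ∈ closedBall (0 : UnitAddCircle) (S.B b).D.r1 := by
    simpa [bad3, ← hj, ← hα] using hb3
  -- no visit of J
  have hnv : ∀ i, 1 ≤ i → i ≤ j + n + Mb b → y + i • α ∉ ball (0 : UnitAddCircle) (S.B b).D.r3 := by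
    intro i hi1 hi2 hmem
    by_cases hij : i ≤ j
    · have hlt : j - i < S.lv b x := by omega
      have := not_mem_of_lt_lev (α := α) (J := S.J b) hlt
      apply this
      have e : x - (j - i) • α = y + i • α := by
        have : j • α = (j - i) • α + i • α := by rw [← add_smul]; congr 1; omega
        rw [hy, this]; abel
      rw [e]; exact hmem
    · refine hb2 ⟨i - j, by unfold LL; omega, ?_⟩
      have e : x + (i - j) • α = y + i • α := by
        have : i • α = j • α + (i - j) • α := by rw [← add_smul]; congr 1; omega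
        rw [hy, this]; abel
      rw [e]; exact hmem
  have hK : (j + n) / Mb b ≤ S.K b := by
    refine (Nat.div_le_self _ _).trans ?_
    have := S.lv_lt b x
    unfold K
    omega
  have hsum := (S.B b).D.sum_cost_column hyI (j := j) (n := n) hnv (by omega) h1 h2 (S.wt w b) hK
  have htel : ∑ k ∈ Ioc (j / Mb b) ((j + n) / Mb b), S.wt w b k =
      S.c b * (2 * ((((j + n) / Mb b : ℕ) : ℝ) - ((j / Mb b : ℕ) : ℝ))
        + epsw w b (j / Mb b) - epsw w b ((j + n) / Mb b)) :=
    sum_wt (S.c b) (fun k => epsw w b k) (Nat.div_le_div_right (by omega))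
  rw [htel] at hsum
  -- decomposition of u along the orbit
  have hdec : ∀ i ∈ Finset.range n, S.u w (x + i • α) =
      ((‖x + i • α‖ ^ 2)⁻¹ + ∑ b' ∈ range b, S.ub w b' (x + i • α)) +
        (S.B b).D.cost (S.wt w b) (S.K b) (y + (j + i) • α) := by
    intro i hi
    simp only [Finset.mem_range] at hi
    have hnot : ∀ b', b + 1 ≤ b' → x + i • α ∉ (S.B b').D.W := by
      intro b' hb' hmem
      apply hb4
      refine ⟨i, by omega, ?_⟩
      refine Set.mem_iUnion.2 ⟨b' - (b + 1), ?_⟩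
      have : b + 1 + (b' - (b + 1)) = b' := by omega
      rw [this]; exact hmem
    rw [S.u_eq w hnot, Finset.sum_range_succ, ← hyx i]
    unfold ub
    ring
  rw [Finset.sum_congr rfl hdec, Finset.sum_add_distrib, hsum]
  have hlow : ∀ i ∈ Finset.range n,
      0 ≤ (‖x + i • α‖ ^ 2)⁻¹ + ∑ b' ∈ range b, S.ub w b' (x + i • α) := by
    intro i _
    have := Finset.sum_nonneg fun b' (_ : b' ∈ range b) => S.ub_nonneg w b' (x + i • α)
    positivity
  have hupp : ∀ i ∈ Finset.range n,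
      (‖x + i • α‖ ^ 2)⁻¹ + ∑ b' ∈ range b, S.ub w b' (x + i • α) ≤
        S.sumC b + ((S.B b).δ ^ 2)⁻¹ := by
    intro i hi
    simp only [Finset.mem_range] at hi
    have h3 : ∑ b' ∈ range b, S.ub w b' (x + i • α) ≤ S.sumC b := by
      rw [S.sumC_eq]
      exact Finset.sum_le_sum fun b' _ => S.ub_le w b' _
    have hδ := (S.B b).δ_pos
    have h4 : (S.B b).δ ≤ ‖x + i • α‖ := by
      by_contra hcon
      push Not at hcon
      exact hb5 ⟨i, by omega, by simpa using hcon⟩
    have h5 : (‖x + i • α‖ ^ 2)⁻¹ ≤ ((S.B b).δ ^ 2)⁻¹ :=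
      inv_anti₀ (by positivity) (pow_le_pow_left₀ hδ.le h4 2)
    linarith
  have hL := Finset.sum_nonneg hlow
  have hU : ∑ i ∈ Finset.range n, ((‖x + i • α‖ ^ 2)⁻¹ + ∑ b' ∈ range b, S.ub w b' (x + i • α)) ≤
      S.e b := by
    refine (Finset.sum_le_sum hupp).trans ?_
    rw [Finset.sum_const, Finset.card_range, nsmul_eq_mul]
    unfold e
    have hpos : 0 ≤ S.sumC b + ((S.B b).δ ^ 2)⁻¹ := by
      have := S.sumC_nonneg b
      positivity
    refine mul_le_mul_of_nonneg_right ?_ hpos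
    exact_mod_cast hn
  constructor <;> linarith

end Setup

/-- T16: the design theorem. -/
theorem exists_design : S_Design := by
  intro θ hθ w
  obtain ⟨S⟩ := exists_setup hθ
  exact ⟨{
    u := S.u w
    u_nonneg := S.u_nonneg w
    cont := S.f_continuous w
    u_meas := S.u_measurable w
    lint := S.lintegral_u w
    c := S.c
    e := S.e
    g := S.g
    lev := S.lv
    Bad := S.Bad
    lev_meas := S.measurable_lv
    bad_meas := S.measurableSet_Bad
    e_nonneg := S.e_nonneg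
    g_le := fun b _ => S.g_le b
    d1 := fun b _ x => lev_add (S.hJ b x)
    d1vol := by
      intro b _
      have hset : {x : UnitAddCircle | S.lv b x = 0} = S.J b := by
        ext x; exact lev_eq_zero_iff (S.hJ b x)
      rw [hset]
      refine (S.volume_J_le b).trans (ENNReal.ofReal_le_ofReal ?_)
      have hM : (1 : ℝ) ≤ Mb b := by exact_mod_cast one_le_Mb b
      have hP : (1 : ℝ) ≤ Pib b := by exact_mod_cast one_le_Pib b
      have hpos : (0 : ℝ) < (Pib b : ℝ) * Mb b := by positivity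
      rw [mul_one_div, div_le_div_iff₀ (by positivity) (by positivity)]
      have h4 : (0 : ℝ) < 4 ^ b := by positivity
      have h5 : (0 : ℝ) < 4 ^ b * ((Pib b : ℝ) * Mb b) := by positivity
      nlinarith
    d2vol := fun b _ => S.D2vol b
    d2 := fun b _ x hx => S.D2 b hx
    d3 := fun b _ x hx n hn h1 h2 => S.D3 w b hx n hn h1 h2
    d4 := fun b _ => le_rfl }⟩

end Crest.Agent.R113.Circ
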